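import Vale.Agent.P269.G1I.All
import Vale.Agent.P269.G1I.H598.Ser
import Vale.Agent.P269.G1I.H660.Loop0
import Vale.Agent.P269.G2I.BSpec1
import Vale.Agent.P269.G2I.T.H521_SrB

/-!
# [G2, DB4a] grading and divisor equation on the big phase space, even dimension
-/

set_option autoImplicit false
set_option linter.unusedSectionVars false

namespace Vale.Agent.P269.G2.H984.SBE

open Finset.HasAntidiagonal (antidiagonal)
open Vale.Agent.P269.CI Vale.Agent.P269.G1 Vale.Agent.P269.G2

section gen

variable {n : ℕ} {K : Type*} [CommRing K] [Algebra ℚ K]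

/-- the coefficients of a variable -/
def dlt (k : Fin n) (L : List (Fin n)) : K := if L = [k] then 1 else 0

theorem sym_dlt (k : Fin n) : Sym (dlt (K := K) k) := by
  intro L M h
  unfold dlt
  have : L = [k] ↔ M = [k] := by
    constructor
    · intro hL
      rw [hL] at h
      exact List.perm_singleton.1 h.symm
    · intro hM
      rw [hM] at h
      exact List.perm_singleton.1 h
  simp only [this]

theorem lst_eq_singleton (α : Fin n →₀ ℕ) (k : Fin n) :
    lst α = [k] ↔ α = Finsupp.single k 1 := by
  constructor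
  · intro h
    ext j
    rw [← H598.count_lst α j, h, Finsupp.single_apply, List.count_singleton]
    by_cases hk : k = j
    · simp [hk]
    · simp [hk]
  · intro h
    have h1 : (lst (0 + Finsupp.single k 1)).Perm (k :: lst (0 : Fin n →₀ ℕ)) := H598.lst_add 0 k
    rw [zero_add, H598.lst_zero] at h1
    rw [h]
    exact List.perm_singleton.1 h1

theorem toSer_dlt (k : Fin n) : toSer (dlt (K := K) k) = MvPowerSeries.X k := by
  classical
  ext α
  rw [H598.coeff_toSer, MvPowerSeries.coeff_X]
  unfold dlt
  simp only [lst_eq_singleton]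
  by_cases h : α = Finsupp.single k 1
  · rw [if_pos h, h]
    have : ∏ i, ((Finsupp.single k 1 : Fin n →₀ ℕ) i).factorial = 1 := by
      apply Finset.prod_eq_one
      intro i _
      rw [Finsupp.single_apply]
      split <;> rfl
    rw [this]
    simp
  · rw [if_neg h, smul_zero]

theorem shf_zero (L : List (Fin n)) : ∀ B : List (Fin n) → K, shf L (fun _ => 0) B = 0 := by
  induction L with
  | nil => intro B; simp [shf]
  | cons i L ih => intro B; rw [shf, ih, ih, add_zero]

theorem shf_nil (L : List (Fin n)) : ∀ B : List (Fin n) → K,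
    shf L (fun M => if M = [] then 1 else 0) B = B L := by
  induction L with
  | nil => intro B; simp [shf]
  | cons i L ih =>
    intro B
    rw [shf, ih]
    have : (fun M : List (Fin n) => if i :: M = [] then (1 : K) else 0) = fun _ => 0 := by
      funext M
      simp
    rw [this, shf_zero, zero_add]

theorem shf_dlt (k : Fin n) (L : List (Fin n)) : ∀ B : List (Fin n) → K,
    shf L (dlt k) B = ∑ j : Fin L.length, if L.get j = k then B (L.eraseIdx j) else 0 := by
  induction L with
  | nil => intro B; simp [shf, dlt]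
  | cons i L ih =>
    intro B
    rw [shf, ih]
    have h1 : (∑ j : Fin (i :: L).length,
        if (i :: L).get j = k then B ((i :: L).eraseIdx j) else 0) =
        (if i = k then B L else 0) +
          ∑ j : Fin L.length, if L.get j = k then B (i :: L.eraseIdx j) else 0 :=
      Fin.sum_univ_succ (n := L.length) _
    rw [h1]
    congr 1
    by_cases h : i = k
    · rw [if_pos h]
      have : (fun M : List (Fin n) => dlt (K := K) k (i :: M)) =
          fun M => if M = [] then 1 else 0 := by
        funext M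
        simp [dlt, h]
      rw [this, shf_nil]
    · rw [if_neg h]
      have : (fun M : List (Fin n) => dlt (K := K) k (i :: M)) = fun _ => 0 := by
        funext M
        simp [dlt, h]
      rw [this, shf_zero]

theorem toSer_zero' : toSer (fun _ : List (Fin n) => (0 : K)) = 0 := by
  ext α
  rw [H598.coeff_toSer, smul_zero]
  rfl

theorem toSer_sum {σ : Type*} (s : Finset σ) (A : σ → List (Fin n) → K) :
    toSer (fun L => ∑ x ∈ s, A x L) = ∑ x ∈ s, toSer (A x) := by
  classical
  induction s using Finset.induction_on with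
  | empty => simpa using toSer_zero'
  | insert a s ha ih =>
    rw [Finset.sum_insert ha, ← ih, ← H598.toSer_add']
    congr 1
    funext L
    exact Finset.sum_insert ha

/-- the series of a sum over the entries of a list -/
theorem toSer_entries (g : Fin n → List (Fin n) → K) (hg : ∀ k, Sym (g k)) :
    toSer (fun L => ∑ j : Fin L.length, g (L.get j) (L.eraseIdx j)) =
      ∑ k, MvPowerSeries.X k * toSer (g k) := by
  have h1 : ∀ k, MvPowerSeries.X k * toSer (g k) = toSer (fun L => shf L (dlt k) (g k)) := by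
    intro k
    rw [← toSer_dlt, H598.toSer_mul _ _ (sym_dlt k) (hg k)]
  simp only [h1]
  rw [← toSer_sum]
  congr 1
  funext L
  simp only [shf_dlt]
  rw [Finset.sum_comm]
  refine Finset.sum_congr rfl fun j _ => ?_
  rw [Finset.sum_ite_eq]
  simp

end gen

section euler

variable {X : CompleteIntersection} {n : ℕ} (E : Fam X n) {F : ℕ → ℕ → List (Ins X) → ℂ}

/-- moving an even insertion through a list -/
theorem move_even (hF : IsGW X F) (g d : ℕ) (x : Ins X) (hx : par X x.1 = false)
    (P : List (Ins X)) : ∀ Q L : List (Ins X), F g d (Q ++ (P ++ x :: L)) =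
      F g d (Q ++ (x :: (P ++ L))) := by
  induction P with
  | nil => intro Q L; rfl
  | cons p P ih =>
    intro Q L
    have h1 := ih (Q ++ [p]) L
    simp only [List.append_assoc, List.nil_append, List.cons_append] at h1 ⊢
    rw [h1, hF.symm g d Q (P ++ L) p x, hx]
    simp [sgn]

theorem par_false (he : Even X.dim) (a : Ix X) : par X a = false := by
  rcases a with j | v
  · rfl
  · have h : X.dim % 2 = 0 := Nat.even_iff.1 he
    simp [par, h]

theorem sr_congr {A B : ℕ → List (Ins X) → ℂ}
    (h : ∀ d (L : List (Fin n)), A d (L.map E.e) = B d (L.map E.e)) : sr E A = sr E B := by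
  unfold sr
  congr 1
  funext L
  ext d
  simpa using h d L

theorem sr_add (A B : ℕ → List (Ins X) → ℂ) :
    sr E (fun d L => A d L + B d L) = sr E A + sr E B := by
  unfold sr
  rw [← H598.toSer_add']
  congr 1

theorem sr_zero : sr E (fun _ _ => 0) = 0 := by
  funext α
  change ((∏ i, (α i).factorial : ℕ) : ℚ)⁻¹ • (PowerSeries.mk fun _ => (0 : ℂ)) = 0
  have : (PowerSeries.mk fun _ => (0 : ℂ)) = 0 := by
    ext; simp
  rw [this, smul_zero]

theorem smul_RB (c : ℂ) (f : RB n) : c • f = cb n c * f := by
  ext n m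
  rw [cb, MvPowerSeries.coeff_C_mul, PowerSeries.coeff_C_mul]
  rfl

theorem sr_smul (c : ℂ) (A : ℕ → List (Ins X) → ℂ) :
    sr E (fun d L => c * A d L) = c • sr E A := by
  funext α
  change ((∏ i, (α i).factorial : ℕ) : ℚ)⁻¹ • (PowerSeries.mk fun d => c * A d _) =
    c • (((∏ i, (α i).factorial : ℕ) : ℚ)⁻¹ • (PowerSeries.mk fun d => A d _))
  rw [smul_comm]
  congr 1

theorem sr_sum {σ : Type*} (s : Finset σ) (A : σ → ℕ → List (Ins X) → ℂ) :
    sr E (fun d L => ∑ x ∈ s, A x d L) = ∑ x ∈ s, sr E (A x) := by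
  classical
  induction s using Finset.induction_on with
  | empty => simpa using sr_zero E
  | insert a s ha ih =>
    rw [Finset.sum_insert ha, ← ih, ← sr_add]
    exact sr_congr E fun d L => Finset.sum_insert ha

theorem sr_const (c : ℂ) :
    sr E (fun d L => if d = 0 ∧ L = [] then c else 0) = cb n c := by
  unfold cb
  ext α m
  change (PowerSeries.coeff m) ((((∏ i, (α i).factorial : ℕ) : ℚ)⁻¹ •
    (PowerSeries.mk fun d => if d = 0 ∧ (lst α).map E.e = [] then c else 0) :
      PowerSeries ℂ)) = _
  rw [MvPowerSeries.coeff_C]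
  by_cases hα : α = 0
  · subst hα
    rw [if_pos rfl, H598.lst_zero]
    simp [PowerSeries.coeff_C]
  · rw [if_neg hα]
    have : lst α ≠ [] := by
      intro h
      apply hα
      ext j
      have := H598.count_lst α j
      rw [h] at this
      simpa using this.symm
    simp [this]

theorem cb_add (a b : ℂ) : cb n (a + b) = cb n a + cb n b := by
  unfold cb; rw [map_add, map_add]

theorem cb_mul (a b : ℂ) : cb n (a * b) = cb n a * cb n b := by
  unfold cb; rw [map_mul, map_mul]

theorem cb_one : cb n 1 = 1 := by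
  unfold cb; rw [map_one, map_one]

theorem cb_sum {σ : Type*} (s : Finset σ) (f : σ → ℂ) : cb n (∑ x ∈ s, f x) = ∑ x ∈ s, cb n (f x) := by
  unfold cb; rw [map_sum, map_sum]

theorem rat_smul_RB (k : ℕ) (f : RB n) : ((k : ℚ) + 1) • f = cb n ((k : ℂ) + 1) * f := by
  have h1 : cb n ((k : ℂ) + 1) = (k : RB n) + 1 := by
    rw [cb_add, cb_one]
    unfold cb
    rw [map_natCast, map_natCast]
  have h2 : algebraMap ℚ (RB n) ((k : ℚ) + 1) = (k : RB n) + 1 := by
    rw [map_add, map_natCast, map_one]
  rw [Algebra.smul_def, h2, h1]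

/-! ### topological recursion -/

theorem trr_sr (hF : IsGW X F) (he : Even X.dim) (a : Ix X) (m : ℕ) (x y : Ins X) :
    sr E (cor F 0 [(a, m + 1), x, y]) = ∑ α, ∑ β, pairingInv X α β •
      (sr E (cor F 0 [(β, 0), x, y]) * sr E (cor F 0 [(a, m), (α, 0)])) := by
  have h1 : ∀ α β, pairingInv X α β •
      (sr E (cor F 0 [(β, 0), x, y]) * sr E (cor F 0 [(a, m), (α, 0)])) =
      sr E (fun d L => pairingInv X α β *
        mulS (cor F 0 [(β, 0), x, y]) (cor F 0 [(a, m), (α, 0)]) d L) := by
    intro α β
    rw [← sr_mulS E he _ _ (symF_cor E hF he 0 _) (symF_cor E hF he 0 _), sr_smul]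
  simp only [h1]
  simp only [← sr_sum]
  refine sr_congr E fun d L => ?_
  exact hF.trr d a m x y (L.map E.e)

/-- moving an insertion -/
theorem sr_move (hF : IsGW X F) (he : Even X.dim) (g : ℕ) (x : Ins X)
    (P Q : List (Ins X)) : sr E (cor F g (P ++ x :: Q)) = sr E (cor F g (x :: (P ++ Q))) := by
  refine sr_congr E fun d L => ?_
  have h := move_even hF g d x (par_false he x.1) P [] (Q ++ L.map E.e)
  simpa [cor] using h

theorem SB_succ (m : ℕ) (c b : Ix X) :
    SB E F (m + 1) c b = ∑ a : Ix X,
      pairingInv X a c • sr E (cor F 0 [(b, m), (a, 0)]) := rfl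

theorem SB_zero (c b : Ix X) :
    SB E F 0 c b = if c = b then 1 else 0 := Matrix.one_apply

/-- topological recursion -/
theorem trr_all (hF : IsGW X F) (he : Even X.dim) (a : Ix X) (m : ℕ) (y z : Ins X) :
    sr E (cor F 0 [(a, m), y, z]) = ∑ i, SB E F m i a * sr E (cor F 0 [(i, 0), y, z]) := by
  cases m with
  | zero =>
    rw [Finset.sum_eq_single a]
    · rw [SB_zero, if_pos rfl, one_mul]
    · intro b _ hb
      rw [SB_zero, if_neg hb, zero_mul]
    · simp
  | succ m =>
    rw [trr_sr E hF he a m y z, Finset.sum_comm]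
    refine Finset.sum_congr rfl fun k _ => ?_
    rw [SB_succ, Finset.sum_mul]
    refine Finset.sum_congr rfl fun l _ => ?_
    rw [smul_mul_assoc, mul_comm]

/-! ### grading, dilaton and divisor equation -/

/-- the sum of `m + 1/2 + μ` -/
noncomputable def wtL (X : CompleteIntersection) (M : List (Ins X)) : ℂ :=
  (M.map fun x => (x.2 : ℂ) + 1 / 2 + mu X x.1).sum

theorem wtL_eq (M : List (Ins X)) : wtL X M =
    ((M.map fun x => (x.2 : ℤ) + hp X x.1 - 1).sum : ℤ) + (M.length : ℂ) * (3 / 2 - X.dim / 2) := by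
  unfold wtL
  induction M with
  | nil => simp
  | cons x M ih =>
    rw [List.map_cons, List.sum_cons, ih, List.map_cons, List.sum_cons, List.length_cons]
    unfold mu
    push_cast
    ring

theorem lowerSum_cons (T : Ix X → Ix X → ℂ) (G : List (Ins X) → ℂ) (x : Ins X)
    (L : List (Ins X)) : lowerSum X T G (x :: L) =
      (if x.2 = 0 then 0 else ∑ c, T x.1 c * G ((c, x.2 - 1) :: L)) +
        lowerSum X T (fun M => G (x :: M)) L := by
  have h1 : lowerSum X T G (x :: L) =
      ∑ j : Fin (L.length + 1), if ((x :: L).get j).2 = 0 then 0 else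
        ∑ c, T ((x :: L).get j).1 c * G ((x :: L).set j (c, ((x :: L).get j).2 - 1)) := rfl
  rw [h1, Fin.sum_univ_succ]
  rfl

theorem lowerSum_smul (c : ℂ) (T : Ix X → Ix X → ℂ) (G : List (Ins X) → ℂ)
    (L : List (Ins X)) : lowerSum X (fun a b => c * T a b) G L = c * lowerSum X T G L := by
  unfold lowerSum
  rw [Finset.mul_sum]
  refine Finset.sum_congr rfl fun j _ => ?_
  split_ifs
  · rw [mul_zero]
  · rw [Finset.mul_sum]
    exact Finset.sum_congr rfl fun c _ => by ring

theorem sum_c1_one (G : Ix X → ℂ) : ∑ c, c1 X (one X) c * G c = (index X : ℂ) * G (hcls X) := by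
  rw [Finset.sum_eq_single (hcls X)]
  · have : c1 X (one X) (hcls X) = index X := by
      unfold c1 one hcls hmul
      simp
    rw [this]
  · intro c _ hc
    have : c1 X (one X) c = 0 := by
      rcases c with j | v
      · unfold c1 one hmul
        have hj : (j : ℕ) ≠ ((0 : Fin (X.dim + 1)) : ℕ) + 1 := by
          intro h
          apply hc
          unfold hcls
          congr 1
          apply Fin.ext
          simpa using h
        simp only
        rw [if_neg hj, mul_zero]
      · unfold c1 one hmul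
        simp
    rw [this, zero_mul]
  · simp

/-- the coefficients of the Euler equation -/
theorem pt (hF : IsGW X F) (d : ℕ) (b e : Ix X) (k : ℕ) (M : List (Ins X)) :
    (3 / 2 + mu X (one X)) * F 0 d ((one X, 1) :: (b, k) :: (e, 0) :: M) +
      ∑ c, c1 X (one X) c * F 0 d ((c, 0) :: (b, k) :: (e, 0) :: M) =
    ((k : ℂ) + 1 + mu X b + mu X e) * F 0 d ((b, k) :: (e, 0) :: M) +
      (if k = 0 then 0 else ∑ c, c1 X b c * F 0 d ((c, k - 1) :: (e, 0) :: M)) +
      (if k = 0 then (if d = 0 ∧ M = [] then ∑ c, c1 X b c * pairing X c e else 0) else 0) +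
      (wtL X M * F 0 d ((b, k) :: (e, 0) :: M) +
        lowerSum X (c1 X) (fun N => F 0 d ((b, k) :: (e, 0) :: N)) M) := by
  have h1 := hF.dilaton 0 d ((b, k) :: (e, 0) :: M)
  have h2 := hF.divisor 0 d ((b, k) :: (e, 0) :: M)
  rw [lowerSum_cons, lowerSum_cons] at h2
  have h3 : wtL X M * F 0 d ((b, k) :: (e, 0) :: M) =
      ((index X : ℂ) * d - ((k : ℂ) + 1 + mu X b + mu X e) +
        (M.length : ℂ) * (3 / 2 - X.dim / 2)) * F 0 d ((b, k) :: (e, 0) :: M) := by
    by_cases h0 : F 0 d ((b, k) :: (e, 0) :: M) = 0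
    · rw [h0, mul_zero, mul_zero]
    · congr 1
      have h4 := hF.grading_p 0 d _ h0
      rw [List.map_cons, List.map_cons, List.sum_cons, List.sum_cons] at h4
      rw [wtL_eq]
      have h5 : ((M.map fun x => (x.2 : ℤ) + hp X x.1 - 1).sum : ℤ) =
          (1 - ((0 : ℕ) : ℤ)) * (X.dim - 3) + index X * d - ((k : ℤ) + hp X b - 1) -
            (((0 : ℕ) : ℤ) + hp X e - 1) := by
        linarith
      rw [h5]
      unfold mu
      push_cast
      ring
  have h6 : lowerSum X (c1 X) (fun N => F 0 d ((b, k) :: (e, 0) :: N)) M =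
      index X * lowerSum X (hmul X) (fun N => F 0 d ((b, k) :: (e, 0) :: N)) M :=
    lowerSum_smul (index X : ℂ) (hmul X) _ M
  have h7 : (if k = 0 then (0 : ℂ) else ∑ c, c1 X b c * F 0 d ((c, k - 1) :: (e, 0) :: M)) =
      index X * (if k = 0 then (0 : ℂ) else
        ∑ c, hmul X b c * F 0 d ((c, k - 1) :: (e, 0) :: M)) := by
    split_ifs
    · rw [mul_zero]
    · rw [Finset.mul_sum]
      exact Finset.sum_congr rfl fun c _ => by rw [c1]; ring
  have h8 : (if k = 0 then (if d = 0 ∧ M = [] then ∑ c, c1 X b c * pairing X c e else 0) else 0) =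
      (index X : ℂ) * (if 0 = 0 ∧ d = 0 then
        pairTerm X (fun a b => ∑ c, hmul X a c * pairing X c b) ((b, k) :: (e, 0) :: M) else 0) := by
    have h9 : ∑ c, c1 X b c * pairing X c e =
        (index X : ℂ) * ∑ c, hmul X b c * pairing X c e := by
      rw [Finset.mul_sum]
      exact Finset.sum_congr rfl fun c _ => by rw [c1]; ring
    rw [h9]
    rcases k with _ | k
    · rcases M with _ | ⟨x, M⟩
      · by_cases hd : d = 0
        · simp [pairTerm, hd]
        · simp [hd]
      · simp [pairTerm]
    · simp [pairTerm]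
  have h10 : mu X (one X) = - (X.dim : ℂ) / 2 := by
    unfold mu one hp
    simp
    ring
  have h11 : ((((b, k) :: (e, 0) :: M).length : ℕ) : ℂ) = M.length + 2 := by
    rw [List.length_cons, List.length_cons]
    push_cast
    ring
  rw [sum_c1_one, h3, h6, h7, h8, h1, h2, h10, h11]
  simp only [if_neg (show ¬ ((0 : ℕ) = 1 ∧ d = 0) by omega), if_true]
  push_cast
  ring

/-! ### the sum over the variables -/

theorem move_set (hF : IsGW X F) (he : Even X.dim) (d : ℕ) (y z x : Ins X)
    (L : List (Fin n)) (j : ℕ) (hj : j < L.length) :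
    F 0 d (y :: z :: (L.map E.e).set j x) = F 0 d (x :: y :: z :: (L.eraseIdx j).map E.e) := by
  have h1 : (L.map E.e).set j x =
      (L.take j).map E.e ++ x :: (L.drop (j + 1)).map E.e := by
    rw [List.set_eq_take_append_cons_drop, if_pos (by simpa using hj), List.map_take,
      List.map_drop]
  have h2 : (L.eraseIdx j).map E.e =
      (L.take j).map E.e ++ (L.drop (j + 1)).map E.e := by
    rw [List.eraseIdx_eq_take_drop_succ, List.map_append]
  rw [h1, h2]
  exact move_even hF 0 d x (par_false he x.1) (y :: z :: (L.take j).map E.e) []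
    ((L.drop (j + 1)).map E.e)

/-- the term of a variable -/
noncomputable def tm (F : ℕ → ℕ → List (Ins X) → ℂ) (y z x : Ins X) (d : ℕ)
    (M : List (Ins X)) : ℂ :=
  ((x.2 : ℂ) + 1 / 2 + mu X x.1) * cor F 0 [x, y, z] d M +
    if x.2 = 0 then 0 else ∑ c, c1 X x.1 c * cor F 0 [(c, x.2 - 1), y, z] d M

theorem sum_tm (hF : IsGW X F) (he : Even X.dim) (y z : Ins X) :
    ∑ i, (MvPowerSeries.X i : RB n) * sr E (tm F y z (E.e i)) =
      sr E (fun d M => wtL X M * F 0 d (y :: z :: M) +
        lowerSum X (c1 X) (fun N => F 0 d (y :: z :: N)) M) := by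
  have hsym : ∀ i, Sym (fun L : List (Fin n) => PowerSeries.mk fun d =>
      tm F y z (E.e i) d (L.map E.e)) := by
    intro i L M h
    ext d
    rw [PowerSeries.coeff_mk, PowerSeries.coeff_mk]
    unfold tm
    rw [symF_cor E hF he 0 _ d L M h]
    congr 1
    split_ifs
    · rfl
    · exact Finset.sum_congr rfl fun c _ => by rw [symF_cor E hF he 0 _ d L M h]
  have h2 := toSer_entries (n := n) (K := PowerSeries ℂ)
    (fun i L => PowerSeries.mk fun d => tm F y z (E.e i) d (L.map E.e)) hsym
  refine Eq.trans h2.symm ?_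
  rw [sr]
  congr 1
  funext L
  ext d
  rw [PowerSeries.coeff_mk, map_sum]
  simp only [PowerSeries.coeff_mk]
  have h3 : wtL X (L.map E.e) = ∑ j : Fin L.length,
      (((E.e (L.get j)).2 : ℂ) + 1 / 2 + mu X (E.e (L.get j)).1) := by
    unfold wtL
    rw [List.map_map]
    exact (Fin.sum_univ_fun_getElem L _).symm
  have h4 : lowerSum X (c1 X) (fun N => F 0 d (y :: z :: N)) (L.map E.e) =
      ∑ j : Fin L.length, if (E.e (L.get j)).2 = 0 then 0 else
        ∑ c, c1 X (E.e (L.get j)).1 c *
          F 0 d ((c, (E.e (L.get j)).2 - 1) :: y :: z :: (L.eraseIdx j).map E.e) := by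
    unfold lowerSum
    refine Fintype.sum_equiv (finCongr (by simp)) _ _ fun j => ?_
    have hj : (j : ℕ) < L.length := by simpa using j.2
    have e1 : (L.map E.e).get j = E.e (L.get ⟨j, hj⟩) := by
      simp
    rw [e1]
    change _ = if (E.e (L.get ⟨j, hj⟩)).2 = 0 then 0 else
        ∑ c, c1 X (E.e (L.get ⟨j, hj⟩)).1 c *
          F 0 d ((c, (E.e (L.get ⟨j, hj⟩)).2 - 1) :: y :: z :: (L.eraseIdx j).map E.e)
    by_cases h0 : (E.e (L.get ⟨j, hj⟩)).2 = 0
    · rw [if_pos h0, if_pos h0]
    · rw [if_neg h0, if_neg h0]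
      refine Finset.sum_congr rfl fun c _ => ?_
      congr 1
      exact move_set E hF he d y z (c, (E.e (L.get ⟨j, hj⟩)).2 - 1) L j hj
  rw [h3, h4, Finset.sum_mul, ← Finset.sum_add_distrib]
  refine Finset.sum_congr rfl fun j _ => ?_
  unfold tm
  have h5 : F 0 d (y :: z :: L.map E.e) =
      F 0 d (E.e (L.get j) :: y :: z :: (L.eraseIdx j).map E.e) := by
    rw [← move_set E hF he d y z _ L j j.2]
    congr 3
    have : E.e (L.get j) = (L.map E.e)[(j : ℕ)]'(by simp) := by simp
    rw [this, List.set_getElem_self]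
  rw [h5]
  rfl

/-! ### the vector `calE` -/

theorem act_muc (f : Ix X → RB n) (A : OB X n) (c : ℂ) (a : Ix X) :
    ∑ i, actB X n (A * muc X n c) (eB X n a) i * f i =
      (c + mu X a) • ∑ i, A i a * f i := by
  rw [smul_RB, Finset.mul_sum]
  refine Finset.sum_congr rfl fun i _ => ?_
  have h : actB X n (A * muc X n c) (eB X n a) i = A i a * cb n (c + mu X a) := by
    change Matrix.mulVec (A * Matrix.diagonal fun b => cb n (c + mu X b))
      (Pi.single a 1) i = _
    rw [Matrix.mulVec_single_one, Matrix.col_apply, Matrix.mul_diagonal]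
  rw [h]
  ring

theorem act_R (f : Ix X → RB n) (A : OB X n) (a : Ix X) :
    ∑ i, actB X n (A * RBcl X n) (eB X n a) i * f i =
      ∑ c : Ix X, c1 X a c • ∑ i, A i c * f i := by
  have h : ∀ i, actB X n (A * RBcl X n) (eB X n a) i =
      ∑ c, A i c * cb n (c1 X a c) := by
    intro i
    change Matrix.mulVec (A * Matrix.of fun c b => cb n (c1 X b c))
      (Pi.single a 1) i = _
    rw [Matrix.mulVec_single_one, Matrix.col_apply, Matrix.mul_apply]
    rfl
  simp only [h, Finset.sum_mul, smul_RB, Finset.mul_sum]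
  rw [Finset.sum_comm]
  exact Finset.sum_congr rfl fun c _ => Finset.sum_congr rfl fun i _ => by ring

theorem calE_sum (hF : IsGW X F) (he : Even X.dim) (y z : Ins X) :
    ∑ i, calE E F i * sr E (cor F 0 [(i, 0), y, z]) =
      (3 / 2 + mu X (one X)) • sr E (cor F 0 [(one X, 1), y, z]) +
        ∑ c, c1 X (one X) c • sr E (cor F 0 [(c, 0), y, z]) -
      ∑ i, (MvPowerSeries.X i : RB n) * sr E (tm F y z (E.e i)) := by
  have e1 : ∀ i, calE E F i = actB X n (SB E F 1 * muc X n (3 / 2)) (eB X n (one X)) i +
      actB X n (SB E F 0 * RBcl X n) (eB X n (one X)) i -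
      ∑ j, (MvPowerSeries.X j : RB n) *
        (actB X n (SB E F (E.e j).2 * muc X n ((E.e j).2 + 1 / 2)) (eB X n (E.e j).1) i +
        if (E.e j).2 = 0 then 0 else
          actB X n (SB E F ((E.e j).2 - 1) * RBcl X n) (eB X n (E.e j).1) i) := by
    intro i
    unfold calE
    rw [map_add, Pi.sub_apply, Finset.sum_apply]
    have h0 : SB E F 0 * RBcl X n = RBcl X n := one_mul _
    rw [h0]
    congr 1
    refine Finset.sum_congr rfl fun j _ => ?_
    rw [Pi.smul_apply, smul_eq_mul]
    congr 1
    rw [Pi.add_apply]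
    congr 1
    split_ifs
    · rfl
    · rfl
  simp only [e1, sub_mul, add_mul, Finset.sum_sub_distrib, Finset.sum_add_distrib]
  rw [act_muc, act_R]
  congr 1
  · congr 1
    · rw [← trr_all E hF he]
    · refine Finset.sum_congr rfl fun c _ => ?_
      rw [← trr_all E hF he]
  · simp only [Finset.sum_mul]
    rw [Finset.sum_comm]
    refine Finset.sum_congr rfl fun j _ => ?_
    have h2 : ∀ i, (MvPowerSeries.X j : RB n) *
        (actB X n (SB E F (E.e j).2 * muc X n ((E.e j).2 + 1 / 2)) (eB X n (E.e j).1) i +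
        if (E.e j).2 = 0 then 0 else
          actB X n (SB E F ((E.e j).2 - 1) * RBcl X n) (eB X n (E.e j).1) i) *
        sr E (cor F 0 [(i, 0), y, z]) = MvPowerSeries.X j *
        (actB X n (SB E F (E.e j).2 * muc X n ((E.e j).2 + 1 / 2)) (eB X n (E.e j).1) i *
          sr E (cor F 0 [(i, 0), y, z]) +
        if (E.e j).2 = 0 then 0 else
          actB X n (SB E F ((E.e j).2 - 1) * RBcl X n) (eB X n (E.e j).1) i *
            sr E (cor F 0 [(i, 0), y, z])) := by
      intro i
      split_ifs <;> ring
    simp only [h2]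
    rw [← Finset.mul_sum, Finset.sum_add_distrib, act_muc]
    congr 1
    have h3 : sr E (tm F y z (E.e j)) =
        (((E.e j).2 : ℂ) + 1 / 2 + mu X (E.e j).1) • sr E (cor F 0 [E.e j, y, z]) +
        if (E.e j).2 = 0 then 0 else
          ∑ c, c1 X (E.e j).1 c • sr E (cor F 0 [(c, (E.e j).2 - 1), y, z]) := by
      unfold tm
      rw [sr_add, sr_smul]
      congr 1
      by_cases h0 : (E.e j).2 = 0
      · simp only [h0, if_true]
        exact sr_zero E
      · simp only [h0, if_false]
        rw [sr_sum]
        exact Finset.sum_congr rfl fun c _ => sr_smul E _ _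
    rw [h3]
    congr 1
    · rw [← trr_all E hF he]
    · by_cases h0 : (E.e j).2 = 0
      · simp only [h0, if_true]
        exact Finset.sum_const_zero
      · simp only [if_neg h0]
        rw [act_R]
        refine Finset.sum_congr rfl fun c _ => ?_
        rw [← trr_all E hF he]

/-- **the Euler equation for two-point functions** -/
theorem euler_two (hF : IsGW X F) (he : Even X.dim) (b e : Ix X) (k : ℕ) :
    ∑ i, calE E F i * sr E (cor F 0 [(i, 0), (b, k), (e, 0)]) =
      ((k : ℂ) + 1 + mu X b + mu X e) • sr E (cor F 0 [(b, k), (e, 0)]) +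
      (if k = 0 then 0 else ∑ c, c1 X b c • sr E (cor F 0 [(c, k - 1), (e, 0)])) +
      (if k = 0 then cb n (∑ c, c1 X b c * pairing X c e) else 0) := by
  rw [calE_sum E hF he, sum_tm E hF he, sub_eq_iff_eq_add]
  have e2 : (if k = 0 then (0 : RB n) else ∑ c, c1 X b c • sr E (cor F 0 [(c, k - 1), (e, 0)])) =
      sr E (fun d L => if k = 0 then 0 else ∑ c, c1 X b c * cor F 0 [(c, k - 1), (e, 0)] d L) := by
    split_ifs
    · exact (sr_zero E).symm
    · rw [sr_sum]
      exact Finset.sum_congr rfl fun c _ => (sr_smul E _ _).symm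
  have e3 : (if k = 0 then cb n (∑ c, c1 X b c * pairing X c e) else 0) =
      sr E (fun d L => if k = 0 then
        (if d = 0 ∧ L = [] then ∑ c, c1 X b c * pairing X c e else 0) else 0) := by
    split_ifs
    · exact (sr_const E _).symm
    · exact (sr_zero E).symm
  have e4 : ∑ c, c1 X (one X) c • sr E (cor F 0 [(c, 0), (b, k), (e, 0)]) =
      sr E (fun d L => ∑ c, c1 X (one X) c * cor F 0 [(c, 0), (b, k), (e, 0)] d L) := by
    rw [sr_sum]
    exact Finset.sum_congr rfl fun c _ => (sr_smul E _ _).symm
  rw [e2, e3, e4, ← sr_smul, ← sr_smul, ← sr_add, ← sr_add, ← sr_add, ← sr_add]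
  exact sr_congr E fun d L => pt hF d b e k (L.map E.e)

/-! ### the pairing -/

theorem deg_ne : deg X ≠ 0 := by
  unfold deg
  have h : X.degs.prod ≠ 0 := by
    apply List.prod_ne_zero
    intro h0
    have := X.degs_pos 0 h0
    omega
  exact_mod_cast h

theorem pairing_inv (j k : Ix X) : ∑ l : Ix X, pairingInv X l k * pairing X j l =
    if j = k then 1 else 0 := by
  rw [Fintype.sum_sum_type]
  rcases j with j | v
  · have h0 : ∑ u : X.Prim, pairingInv X (Sum.inr u) k * pairing X (Sum.inl j) (Sum.inr u) = 0 := by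
      refine Finset.sum_eq_zero fun u _ => ?_
      have : pairing X (Sum.inl j) (Sum.inr u) = 0 := rfl
      rw [this, mul_zero]
    rw [h0, add_zero]
    rcases k with k | w
    · rw [Finset.sum_eq_single (⟨X.dim - j, by omega⟩ : Fin (X.dim + 1))]
      · simp only [pairing, pairingInv]
        have hj : (j : ℕ) ≤ X.dim := by omega
        rw [if_pos (by omega : (j : ℕ) + (X.dim - j) = X.dim)]
        by_cases h : j = k
        · subst h
          rw [if_pos (by omega), if_pos rfl, inv_mul_cancel₀ deg_ne]
        · have h' : (j : ℕ) ≠ k := fun h' => h (Fin.ext h')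
          have h'' : (Sum.inl j : Ix X) ≠ Sum.inl k := fun e => h (Sum.inl_injective e)
          rw [if_neg (by omega), if_neg h'', zero_mul]
      · intro l _ hl
        have : (j : ℕ) + l ≠ X.dim := by
          intro h
          apply hl
          apply Fin.ext
          simp only
          omega
        simp only [pairing]
        rw [if_neg this, mul_zero]
      · simp
    · rw [if_neg (by simp)]
      refine Finset.sum_eq_zero fun l _ => ?_
      have : pairingInv X (Sum.inl l) (Sum.inr w) = 0 := rfl
      rw [this, zero_mul]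
  · have h0 : ∑ l : Fin (X.dim + 1), pairingInv X (Sum.inl l) k *
        pairing X (Sum.inr v) (Sum.inl l) = 0 := by
      refine Finset.sum_eq_zero fun u _ => ?_
      have : pairing X (Sum.inr v) (Sum.inl u) = 0 := rfl
      rw [this, mul_zero]
    rw [h0, zero_add]
    rcases k with k | w
    · rw [if_neg (by simp)]
      refine Finset.sum_eq_zero fun l _ => ?_
      have : pairingInv X (Sum.inr l) (Sum.inl k) = 0 := rfl
      rw [this, zero_mul]
    · have h6 : Matrix.of X.form * (Matrix.of X.form)⁻¹ = 1 :=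
        Matrix.mul_nonsing_inv _ (isUnit_iff_ne_zero.2 X.form_nondeg)
      have h7 := congrFun (congrFun h6 v) w
      rw [Matrix.mul_apply, Matrix.one_apply] at h7
      have h8 : (if (Sum.inr v : Ix X) = Sum.inr w then (1 : ℂ) else 0) = if v = w then 1 else 0 := by
        by_cases h : v = w
        · rw [h, if_pos rfl, if_pos rfl]
        · rw [if_neg h, if_neg fun e => h (Sum.inr_injective e)]
      rw [h8, ← h7]
      refine Finset.sum_congr rfl fun u _ => ?_
      change (Matrix.of X.form)⁻¹ u w * X.form v u = X.form v u * _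
      rw [mul_comm]

/-- the inverse pairing is supported on complementary degrees -/
theorem inv_mu (a c : Ix X) (h : pairingInv X a c ≠ 0) : mu X a = - mu X c := by
  have := H660.Lp.pairingInv_mu X h
  linear_combination this

/-- **[DB4a]** grading and divisor equation -/
theorem SB_euler (hF : IsGW X F) (he : Even X.dim) (k : ℕ) :
    CB E F (calE E F) * SB E F k =
    ((k : ℚ) + 1) • SB E F (k + 1) + SB E F (k + 1) * muB X n - muB X n * SB E F (k + 1) +
      SB E F k * RBcl X n := by
  refine Matrix.ext fun c b => ?_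
  have hR : (((k : ℚ) + 1) • SB E F (k + 1) + SB E F (k + 1) * muB X n -
      muB X n * SB E F (k + 1) + SB E F k * RBcl X n) c b =
      cb n ((k : ℂ) + 1) * SB E F (k + 1) c b +
      SB E F (k + 1) c b * cb n (mu X b) - cb n (mu X c) * SB E F (k + 1) c b +
      ∑ j, SB E F k c j * cb n (c1 X b j) := by
    rw [← rat_smul_RB]
    have e1 : (SB E F (k + 1) * muB X n) c b = SB E F (k + 1) c b * cb n (mu X b) := by
      change (SB E F (k + 1) * Matrix.diagonal fun b => cb n (mu X b)) c b = _
      rw [Matrix.mul_diagonal]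
    have e2 : (muB X n * SB E F (k + 1)) c b = cb n (mu X c) * SB E F (k + 1) c b := by
      change ((Matrix.diagonal fun b => cb n (mu X b)) * SB E F (k + 1)) c b = _
      rw [Matrix.diagonal_mul]
    rw [← e1, ← e2]
    rfl
  rw [hR]
  have e0 : ∀ i a : Ix X, ∑ j, SB E F k j b *
      sr E (cor F 0 [(i, 0), (j, 0), (a, 0)]) =
      sr E (cor F 0 [(i, 0), (b, k), (a, 0)]) := by
    intro i a
    have s1 : sr E (cor F 0 [(i, 0), (b, k), (a, 0)]) =
        sr E (cor F 0 [(b, k), (i, 0), (a, 0)]) :=
      sr_move E hF he 0 (b, k) [(i, 0)] [(a, 0)]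
    rw [s1, trr_all E hF he]
    refine Finset.sum_congr rfl fun j _ => ?_
    congr 1
    exact sr_move E hF he 0 (j, 0) [(i, 0)] [(a, 0)]
  have e1 : (CB E F (calE E F) * SB E F k) c b =
      ∑ a : Ix X, pairingInv X a c •
        ∑ i, calE E F i * sr E (cor F 0 [(i, 0), (b, k), (a, 0)]) := by
    change ∑ j, (∑ i, calE E F i * ∑ a : Ix X,
      pairingInv X a c • sr E (cor F 0 [(i, 0), (j, 0), (a, 0)])) *
        SB E F k j b = _
    simp only [← e0, Finset.sum_mul, Finset.mul_sum, Finset.smul_sum]
    rw [Finset.sum_comm]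
    conv_lhs => enter [2, i]; rw [Finset.sum_comm]
    rw [Finset.sum_comm]
    refine Finset.sum_congr rfl fun a _ => Finset.sum_congr rfl fun i _ =>
      Finset.sum_congr rfl fun j _ => ?_
    rw [smul_RB, smul_RB]
    ring
  rw [e1]
  simp only [euler_two E hF he, smul_add, Finset.sum_add_distrib]
  have e2 : ∑ a : Ix X, pairingInv X a c •
      (((k : ℂ) + 1 + mu X b + mu X a) •
        sr E (cor F 0 [(b, k), (a, 0)])) =
      cb n ((k : ℂ) + 1) * SB E F (k + 1) c b +
      SB E F (k + 1) c b * cb n (mu X b) - cb n (mu X c) * SB E F (k + 1) c b := by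
    have e3 : cb n ((k : ℂ) + 1) * SB E F (k + 1) c b +
        SB E F (k + 1) c b * cb n (mu X b) - cb n (mu X c) * SB E F (k + 1) c b =
        ((k : ℂ) + 1 + mu X b - mu X c) • SB E F (k + 1) c b := by
      have : cb n ((k : ℂ) + 1 + mu X b - mu X c) =
          cb n ((k : ℂ) + 1) + cb n (mu X b) - cb n (mu X c) := by
        unfold cb
        rw [map_sub, map_sub, map_add (PowerSeries.C) ((k : ℂ) + 1), map_add MvPowerSeries.C]
      rw [smul_RB, this]
      ring
    rw [e3, SB_succ, Finset.smul_sum]
    refine Finset.sum_congr rfl fun a _ => ?_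
    rw [smul_smul, smul_smul]
    by_cases h : pairingInv X a c = 0
    · rw [h, zero_mul, mul_zero]
    · rw [inv_mu a c h, mul_comm]
      congr 2
  rw [e2, add_assoc]
  congr 1
  rcases k with _ | k
  · simp only [if_true, smul_zero, Finset.sum_const_zero, zero_add]
    have e4 : ∀ j, SB E F 0 c j * cb n (c1 X b j) =
        if c = j then cb n (c1 X b j) else 0 := by
      intro j
      rw [SB_zero]
      split_ifs
      · rw [one_mul]
      · rw [zero_mul]
    simp only [e4, Finset.sum_ite_eq, Finset.mem_univ, if_true]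
    have e5 : ∀ a : Ix X, pairingInv X a c • cb n (∑ c', c1 X b c' * pairing X c' a) =
        cb n (pairingInv X a c * ∑ c', c1 X b c' * pairing X c' a) := by
      intro a
      rw [smul_RB, cb_mul]
    simp only [e5]
    rw [← cb_sum]
    congr 1
    simp only [Finset.mul_sum]
    rw [Finset.sum_comm]
    have e6 : ∀ j : Ix X, ∑ a : Ix X,
        pairingInv X a c * (c1 X b j * pairing X j a) =
        c1 X b j * if j = c then 1 else 0 := by
      intro j
      rw [← pairing_inv j c, Finset.mul_sum]
      exact Finset.sum_congr rfl fun a _ => by ring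
    simp only [e6]
    simp
  · simp only [Nat.succ_ne_zero, if_false, smul_zero, Finset.sum_const_zero, add_zero,
      Nat.add_sub_cancel]
    simp only [Finset.smul_sum]
    rw [Finset.sum_comm]
    refine Finset.sum_congr rfl fun j _ => ?_
    rw [SB_succ, Finset.sum_mul]
    refine Finset.sum_congr rfl fun a _ => ?_
    rw [smul_comm, smul_RB (c1 X b j), mul_comm]

end euler

end Vale.Agent.P269.G2.H984.SBE
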