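import Vale.Agent.P269.G1I.All
import Vale.Agent.P269.G1I.H819.Q45
import Vale.Agent.P269.G1I.H984.DeZero

/-!
# [G2] the sequence `alpha_n` vanishes: linear relations, initial values, linear system
-/

set_option autoImplicit false

namespace Vale.Agent.P269.G2.H984

open Finset.HasAntidiagonal (antidiagonal)
open Vale.Agent.P269.CI Vale.Agent.P269.G1 Vale.Agent.P269.G1.H984
open Polynomial (aeval)

section gen

/-- evaluation of a sum over the coefficients after a ring homomorphism -/
theorem map_sum_coeff {R K : Type*} [CommRing R] [CommRing K] (φ : R →+* K) (p : Polynomial R)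
    (g : ℕ → R) : φ (p.sum fun n c => c * g n) = (p.map φ).sum fun n c => c * φ (g n) := by
  rw [Polynomial.sum_over_range _ (fun n => zero_mul _),
    Polynomial.sum_over_range' _ (fun n => zero_mul _) (p.natDegree + 1)
      (Nat.lt_succ_of_le Polynomial.natDegree_map_le), map_sum]
  exact Finset.sum_congr rfl fun n _ => by rw [map_mul, Polynomial.coeff_map]

/-- the value on a polynomial with two terms -/
theorem sum_two {K : Type*} [CommRing K] (a b : ℕ) (x y : K) (g : ℕ → K) :
    (Polynomial.monomial a x + Polynomial.monomial b y).sum (fun n c => c * g n) =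
      x * g a + y * g b := by
  rw [Polynomial.sum_add_index _ _ _ (fun n => zero_mul _) (fun n c d => add_mul _ _ _),
    Polynomial.sum_monomial_index x (fun n c => c * g n) (zero_mul _),
    Polynomial.sum_monomial_index y (fun n c => c * g n) (zero_mul _)]

/-- (X3): a sequence killed by `P = x^{m+ν} - c q x^m` and by `(x^D P)'` vanishes from `m` on -/
theorem killed2 {K : Type*} [Field K] [CharZero K] {m ν : ℕ} (hm : 1 ≤ m) (hν : 1 ≤ ν) (c : K)
    (hc : c ≠ 0) (D : ℕ) (a : ℕ → PowerSeries K)
    (hP : ∀ j, a (m + ν + j) = PowerSeries.C c * PowerSeries.X * a (m + j))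
    (hP' : ∀ j, ((m + ν + D : ℕ) : PowerSeries K) * a (m + ν + D - 1 + j) =
      PowerSeries.C c * PowerSeries.X * (((m + D : ℕ) : PowerSeries K) * a (m + D - 1 + j))) :
    ∀ p, m ≤ p → a p = 0 := by
  have hC : (PowerSeries.C c : PowerSeries K) ≠ 0 := by
    intro h
    apply hc
    have := congrArg (PowerSeries.constantCoeff (R := K)) h
    simpa using this
  have hX : (PowerSeries.X : PowerSeries K) ≠ 0 := PowerSeries.X_ne_zero
  have hCX : PowerSeries.C c * PowerSeries.X ≠ (0 : PowerSeries K) := mul_ne_zero hC hX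
  have hchar : ((ν : ℕ) : PowerSeries K) ≠ 0 := by
    intro h
    have h2 := congrArg (PowerSeries.constantCoeff (R := K)) h
    rw [map_natCast, map_zero] at h2
    exact absurd (by exact_mod_cast h2) (by omega : ν ≠ 0)
  -- step 1
  have h1 : ∀ p, m + D ≤ p → a p = 0 := by
    intro p hp
    obtain ⟨i, rfl⟩ := Nat.exists_eq_add_of_le hp
    have e1 := hP' (i + 1)
    have e2 := hP (D + i)
    rw [show m + ν + D - 1 + (i + 1) = m + ν + (D + i) by omega, e2,
      show m + D - 1 + (i + 1) = m + (D + i) by omega] at e1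
    have e3 : PowerSeries.C c * PowerSeries.X * (((ν : ℕ) : PowerSeries K) * a (m + (D + i))) = 0 := by
      have e4 : ((m + ν + D : ℕ) : PowerSeries K) = (ν : PowerSeries K) +
          ((m + D : ℕ) : PowerSeries K) := by push_cast; ring
      rw [e4] at e1
      linear_combination e1
    rcases mul_eq_zero.mp e3 with h | h
    · exact absurd h hCX
    · rcases mul_eq_zero.mp h with h | h
      · exact absurd h hchar
      · rw [show m + D + i = m + (D + i) by omega]
        exact h
  -- step 2
  have h2 : ∀ k i, a (m + i + k * ν) = (PowerSeries.C c * PowerSeries.X) ^ k * a (m + i) := by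
    intro k
    induction k with
    | zero => intro i; simp
    | succ k ih =>
      intro i
      have e := hP (i + k * ν)
      rw [show m + ν + (i + k * ν) = m + i + (k + 1) * ν by ring,
        show m + (i + k * ν) = m + i + k * ν by ring, ih i] at e
      rw [e, pow_succ]
      ring
  intro p hp
  obtain ⟨i, rfl⟩ := Nat.exists_eq_add_of_le hp
  have h3 := h2 D i
  rw [h1 (m + i + D * ν) (by nlinarith)] at h3
  rcases mul_eq_zero.mp h3.symm with h | h
  · exact absurd h (pow_ne_zero _ hCX)
  · exact h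

/-- a power series `l` with `l^(m+ν) = c q l^m`, `ν ≥ 2`, is zero -/
theorem root_zero {K : Type*} [Field K] {m ν : ℕ} (hν : 2 ≤ ν) (c : K) (hc : c ≠ 0)
    (l : PowerSeries K) (h : l ^ (m + ν) = PowerSeries.C c * PowerSeries.X * l ^ m) : l = 0 := by
  by_contra hl
  have h1 : l ^ ν = PowerSeries.C c * PowerSeries.X := by
    have h2 : l ^ m * l ^ ν = l ^ m * (PowerSeries.C c * PowerSeries.X) := by
      rw [← pow_add, h]
      ring
    exact mul_left_cancel₀ (pow_ne_zero _ hl) h2
  have h2 : (PowerSeries.X : PowerSeries K) ∣ l := by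
    apply PowerSeries.X_prime.dvd_of_dvd_pow (n := ν)
    rw [h1]
    exact Dvd.intro_left _ rfl
  obtain ⟨g, rfl⟩ := h2
  rw [mul_pow] at h1
  have h3 := congrArg (PowerSeries.coeff 1) h1
  rw [PowerSeries.coeff_X_pow_mul', if_neg (by omega), PowerSeries.coeff_C_mul,
    PowerSeries.coeff_one_X, mul_one] at h3
  exact hc h3.symm

end gen

section spec

variable {X : CompleteIntersection} {F : ℕ → ℕ → List (Ins X) → ℂ}

variable (hF : IsGW X F) (h1 : IsGenusOne F)

/-- the partial difference quotient -/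
noncomputable def ph (n : ℕ) (z : AA hF h1) : AA hF h1 :=
  ∑ i ∈ Finset.range n, Eu hF h1 ^ i * (muO hF h1).1 (Eu hF h1 ^ (n - 1 - i) * z)

theorem ph_add (j n : ℕ) (z : AA hF h1) :
    ph hF h1 (j + n) z = ph hF h1 j (Eu hF h1 ^ n * z) + Eu hF h1 ^ j * ph hF h1 n z := by
  unfold ph
  rw [Finset.sum_range_add]
  refine congrArg₂ (· + ·) ?_ ?_
  · refine Finset.sum_congr rfl fun i hi => ?_
    rw [Finset.mem_range] at hi
    rw [← mul_assoc (Eu hF h1 ^ (j - 1 - i)), ← pow_add,
      show j - 1 - i + n = j + n - 1 - i by omega]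
  · rw [Finset.mul_sum]
    refine Finset.sum_congr rfl fun i hi => ?_
    rw [Finset.mem_range] at hi
    rw [← mul_assoc, ← pow_add, show j + n - 1 - (j + i) = n - 1 - i by omega]

theorem phi_eq (n : ℕ) : (frob hF h1).phi n = ph hF h1 n 1 := by
  refine Eq.trans ?_ (H598.antidiag_shift n
    (fun a b => Eu hF h1 ^ a * (muO hF h1).1 (Eu hF h1 ^ b * 1)))
  rw [Frob.phi]
  refine Finset.sum_congr rfl fun e _ => ?_
  split_ifs
  · rfl
  · rw [mul_one]
    have h5 : (dd hF h1 (Eu hF h1 ^ e.2) -
        (algebraMap ℚ (RR X) ((X.dim : ℚ) / 2)) • Eu hF h1 ^ e.2) =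
        (muO hF h1).1 (Eu hF h1 ^ e.2) := by
      rw [H819.algebraMap_rat]
      change _ = dd hF h1 (Eu hF h1 ^ e.2) - cst X ((X.dim : ℂ) / 2) • Eu hF h1 ^ e.2
      congr 3
      push_cast
      ring
    change (Eu hF h1 ^ (e.1 - 1) * (dd hF h1 (Eu hF h1 ^ e.2) -
        (algebraMap ℚ (RR X) ((X.dim : ℚ) / 2)) • Eu hF h1 ^ e.2)) = _
    rw [h5]

/-- the relation for the shifted vectors `phi` -/
theorem phi_shift (hi : index X ≠ 0) (P : Polynomial (RR X)) (hP : aeval (Eu hF h1) P = 0)
    (n : ℕ) : P.sum (fun j c => c • (frob hF h1).phi (j + n)) = 0 := by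
  have h0 := H819.skew hF h1 hi P hP (Eu hF h1 ^ n)
  have h2 : aeval (Eu hF h1) P * ph hF h1 n 1 = 0 := by rw [hP, zero_mul]
  rw [Polynomial.aeval_def, Polynomial.eval₂_eq_sum, Polynomial.sum_def, Finset.sum_mul] at h2
  rw [Polynomial.sum_def] at h0 ⊢
  have h3 : ∀ j ∈ P.support, P.coeff j • (frob hF h1).phi (j + n) =
      (∑ e ∈ antidiagonal j, if e.1 = 0 then 0 else
        P.coeff j • (Eu hF h1 ^ (e.1 - 1) * (muO hF h1).1 (Eu hF h1 ^ e.2 * Eu hF h1 ^ n))) +
      algebraMap (RR X) (AA hF h1) (P.coeff j) * Eu hF h1 ^ j * ph hF h1 n 1 := by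
    intro j _
    rw [phi_eq, ph_add, smul_add, mul_one]
    congr 1
    · have h4 : ph hF h1 j (Eu hF h1 ^ n) = _ := (H598.antidiag_shift j
        (fun a b => Eu hF h1 ^ a * (muO hF h1).1 (Eu hF h1 ^ b * Eu hF h1 ^ n))).symm
      rw [h4, Finset.smul_sum]
      refine Finset.sum_congr rfl fun e _ => ?_
      split_ifs
      · exact smul_zero _
      · rfl
    · rw [Algebra.smul_def, mul_assoc]
  rw [Finset.sum_congr rfl h3, Finset.sum_add_distrib, h0, h2, add_zero]

/-- (X2) -/
theorem alpha_rel (hi : index X ≠ 0) (P : Polynomial (RR X)) (hPE : aeval (Eu hF h1) P = 0)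
    (v : X.Prim) (s N : RR X) (α : ℕ → RR X)
    (H1 : ∀ m n, der hF h1 (Eu hF h1 ^ m) (α n) +
      (s * (m * (lam hF h1 (Eu hF h1)) v ^ (m - 1)) +
        N * (lam hF h1 ((frob hF h1).phi m)) v) * α n = n * α (m + n - 1)) (n : ℕ) :
    P.sum (fun j c => c * α (j + n)) =
      s * ((lam hF h1 (Eu hF h1)) v ^ n * P.derivative.eval ((lam hF h1 (Eu hF h1)) v)) * α 1 := by
  set l := (lam hF h1 (Eu hF h1)) v with hl
  have hroot : P.sum (fun j c => c * l ^ j) = 0 := by
    have h2 := congrArg (H819.lamAt hF h1 v) hPE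
    rw [map_zero, ← Polynomial.aeval_algHom_apply] at h2
    rw [Polynomial.aeval_def, Polynomial.eval₂_eq_sum] at h2
    exact h2
  have e1 := sum_lin (derL (frob hF h1) (α 1)) P (Eu hF h1) hPE n
  have e2 := phi_shift hF h1 hi P hPE n
  have e3 := congrArg (H819.lamAt hF h1 v) e2
  rw [Polynomial.derivative_eval]
  rw [Polynomial.sum_def] at e1 e2 e3 hroot ⊢
  rw [map_zero, map_sum] at e3
  have e4 : ∑ j ∈ P.support, P.coeff j * (lam hF h1 ((frob hF h1).phi (j + n))) v = 0 := by
    rw [← e3]
    refine Finset.sum_congr rfl fun j _ => ?_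
    rw [map_smul]
    rfl
  have e5 : ∀ j, α (j + n) = der hF h1 (Eu hF h1 ^ (j + n)) (α 1) +
      (s * (((j + n : ℕ) : RR X) * l ^ (j + n - 1)) +
        N * (lam hF h1 ((frob hF h1).phi (j + n))) v) * α 1 := by
    intro j
    have h := H1 (j + n) 1
    rw [Nat.cast_one, one_mul, show j + n + 1 - 1 = j + n by omega] at h
    exact h.symm
  have e6 : ∑ j ∈ P.support, P.coeff j * (((j + n : ℕ) : RR X) * l ^ (j + n - 1)) =
      l ^ n * P.sum fun j c => c * j * l ^ (j - 1) := by
    rw [Polynomial.sum_def, Finset.mul_sum]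
    have e7 : ∑ j ∈ P.support, P.coeff j * ((n : RR X) * l ^ (j + n - 1)) = 0 := by
      rcases Nat.eq_zero_or_pos n with h0 | h0
      · subst h0
        refine Finset.sum_eq_zero fun j _ => ?_
        rw [Nat.cast_zero, zero_mul, mul_zero]
      · have e8 : ∀ j, P.coeff j * ((n : RR X) * l ^ (j + n - 1)) =
            (n : RR X) * l ^ (n - 1) * (P.coeff j * l ^ j) := by
          intro j
          rw [show j + n - 1 = j + (n - 1) by omega, pow_add]
          ring
        simp only [e8]
        rw [← Finset.mul_sum, hroot, mul_zero]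
    have e9 : ∀ j, P.coeff j * (((j + n : ℕ) : RR X) * l ^ (j + n - 1)) =
        l ^ n * (P.coeff j * j * l ^ (j - 1)) + P.coeff j * ((n : RR X) * l ^ (j + n - 1)) := by
      intro j
      rcases Nat.eq_zero_or_pos j with h0 | h0
      · subst h0
        push_cast
        ring
      · rw [show j + n - 1 = (j - 1) + n by omega, pow_add]
        push_cast
        ring
    simp only [e9]
    rw [Finset.sum_add_distrib, e7, add_zero]
  have e10 : ∑ j ∈ P.support, P.coeff j * α (j + n) =
      (∑ j ∈ P.support, P.coeff j * (derL (frob hF h1) (α 1)) ((Eu hF h1) ^ (j + n))) +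
      s * (∑ j ∈ P.support, P.coeff j * (((j + n : ℕ) : RR X) * l ^ (j + n - 1))) * α 1 +
      N * (∑ j ∈ P.support, P.coeff j * (lam hF h1 ((frob hF h1).phi (j + n))) v) * α 1 := by
    rw [Finset.mul_sum, Finset.mul_sum, Finset.sum_mul, Finset.sum_mul, ← Finset.sum_add_distrib,
      ← Finset.sum_add_distrib]
    refine Finset.sum_congr rfl fun j _ => ?_
    have e11 : (derL (frob hF h1) (α 1)) ((Eu hF h1) ^ (j + n)) =
      der hF h1 (Eu hF h1 ^ (j + n)) (α 1) := rfl
    rw [e11, e5 j]
    ring
  rw [e10, e1, e4, e6]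
  ring

/-- the polynomial at the origin -/
theorem map_cc (hm : excess X < X.dim + 1) (P : Polynomial (RR X)) (hmon : P.Monic)
    (hdeg : P.natDegree = X.dim + 1)
    (hP0 : ∀ i < X.dim + 1, MvPowerSeries.constantCoeff (P.coeff i) =
      if i = excess X then - (PowerSeries.C (cq X) * PowerSeries.X) else 0) :
    P.map (MvPowerSeries.constantCoeff (σ := Fin (X.dim + 1)) (R := PowerSeries ℂ)) =
      Polynomial.monomial (X.dim + 1) 1 +
        Polynomial.monomial (excess X) (- (PowerSeries.C (cq X) * PowerSeries.X)) := by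
  ext1 i
  rw [Polynomial.coeff_map, Polynomial.coeff_add, Polynomial.coeff_monomial,
    Polynomial.coeff_monomial]
  rcases Nat.lt_trichotomy i (X.dim + 1) with h | h | h
  · rw [hP0 i h, if_neg (show ¬ X.dim + 1 = i by omega), zero_add]
    by_cases h2 : i = excess X
    · rw [if_pos h2, if_pos h2.symm]
    · rw [if_neg h2, if_neg (Ne.symm h2)]
  · subst h
    have hlead : P.coeff (X.dim + 1) = 1 := by
      have h := hmon.coeff_natDegree
      rwa [hdeg] at h
    rw [hlead, map_one, if_pos rfl, if_neg (by omega), add_zero]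
  · rw [Polynomial.coeff_eq_zero_of_natDegree_lt (by omega), map_zero, if_neg (by omega),
      if_neg (by omega), add_zero]

/-- (X3): all values at the origin vanish -/
theorem alpha_cc (hm : 2 ≤ excess X) (hi : 2 ≤ index X) (P : Polynomial (RR X))
    (hmon : P.Monic) (hdeg : P.natDegree = X.dim + 1) (hPE : aeval (Eu hF h1) P = 0)
    (hP0 : ∀ i < X.dim + 1, MvPowerSeries.constantCoeff (P.coeff i) =
      if i = excess X then - (PowerSeries.C (cq X) * PowerSeries.X) else 0)
    (v : X.Prim) (s N : RR X) (α : ℕ → RR X)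
    (H1 : ∀ m n, der hF h1 (Eu hF h1 ^ m) (α n) +
      (s * (m * (lam hF h1 (Eu hF h1)) v ^ (m - 1)) +
        N * (lam hF h1 ((frob hF h1).phi m)) v) * α n = n * α (m + n - 1))
    (D : ℕ)
    (H2 : ∀ j, (P * (Polynomial.X - Polynomial.C ((lam hF h1 (Eu hF h1)) v)) ^ D).sum
      (fun n c => c * ((n : RR X) * α (n - 1 + j))) = 0)
    (H3 : ∀ p < excess X, MvPowerSeries.constantCoeff (α p) = 0) (p : ℕ) :
    MvPowerSeries.constantCoeff (α p) = 0 := by
  have hi0 : index X ≠ 0 := by omega
  have hidx := index_eq X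
  have hlt : excess X + 2 ≤ X.dim + 1 := by omega
  have hsum : X.dim + 1 = excess X + (X.dim + 1 - excess X) := by omega
  set l := (lam hF h1 (Eu hF h1)) v with hl
  set cc := (MvPowerSeries.constantCoeff (σ := Fin (X.dim + 1)) (R := PowerSeries ℂ)) with hcc
  have hmap := map_cc (by omega) P hmon hdeg hP0
  rw [← hcc] at hmap
  -- evaluation of sums at the origin
  have hev : ∀ g : ℕ → RR X, cc (P.sum fun n c => c * g n) =
      cc (g (X.dim + 1)) - PowerSeries.C (cq X) * PowerSeries.X * cc (g (excess X)) := by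
    intro g
    rw [map_sum_coeff, hmap, sum_two]
    ring
  -- the eigenvalue vanishes at the origin
  have hroot : P.sum (fun j c => c * l ^ j) = 0 := by
    have h2 := congrArg (H819.lamAt hF h1 v) hPE
    rw [map_zero, ← Polynomial.aeval_algHom_apply] at h2
    rw [Polynomial.aeval_def, Polynomial.eval₂_eq_sum] at h2
    exact h2
  have hl0 : cc l = 0 := by
    have h := congrArg cc hroot
    rw [hev (fun j => l ^ j), map_zero, map_pow, map_pow, sub_eq_zero] at h
    refine root_zero (m := excess X) (ν := X.dim + 1 - excess X) (by omega) (cq X)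
      (cq_ne_zero hi0) (cc l) ?_
    rw [← hsum]
    exact h
  -- the derivative at the origin
  have hder : cc (P.derivative.eval l) = 0 := by
    rw [Polynomial.derivative_eval]
    have h : (P.sum fun n c => c * (n : RR X) * l ^ (n - 1)) =
        P.sum fun n c => c * ((n : RR X) * l ^ (n - 1)) := by
      simp only [mul_assoc]
    rw [h, hev (fun n => (n : RR X) * l ^ (n - 1)), map_mul, map_mul, map_pow, map_pow, hl0,
      zero_pow (by omega), zero_pow (by omega)]
    ring
  refine (lt_or_ge p (excess X)).elim (H3 p) fun hp => ?_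
  refine killed2 (m := excess X) (ν := X.dim + 1 - excess X) (by omega) (by omega) (cq X)
    (cq_ne_zero hi0) D (fun p => cc (α p)) ?_ ?_ p hp
  · intro j
    have h := congrArg cc (alpha_rel hF h1 hi0 P hPE v s N α H1 j)
    rw [hev fun n => α (n + j)] at h
    simp only [map_mul] at h
    rw [← hl, hder, mul_zero, mul_zero, zero_mul, sub_eq_zero] at h
    rw [← hsum]
    exact h
  · intro j
    have h := congrArg cc (H2 j)
    have hmap2 : (P * (Polynomial.X - Polynomial.C l) ^ D).map cc =
        Polynomial.monomial (X.dim + 1 + D) 1 +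
          Polynomial.monomial (excess X + D) (- (PowerSeries.C (cq X) * PowerSeries.X)) := by
      rw [Polynomial.map_mul, hmap, Polynomial.map_pow, Polynomial.map_sub, Polynomial.map_X,
        Polynomial.map_C, hl0, map_zero, sub_zero, add_mul, Polynomial.monomial_mul_X_pow,
        Polynomial.monomial_mul_X_pow]
    rw [map_sum_coeff, hmap2, sum_two, map_zero, map_mul, map_mul, map_natCast, map_natCast] at h
    rw [← hsum]
    have e1 : excess X + D - 1 + j = excess X + D - 1 + j := rfl
    linear_combination h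

/-- every `alpha_n` is a combination of the first ones -/
theorem exists_lin (hi : index X ≠ 0) (P : Polynomial (RR X))
    (hmon : P.Monic) (hdeg : P.natDegree = X.dim + 1) (hPE : aeval (Eu hF h1) P = 0)
    (v : X.Prim) (s N : RR X) (α : ℕ → RR X)
    (H1 : ∀ m n, der hF h1 (Eu hF h1 ^ m) (α n) +
      (s * (m * (lam hF h1 (Eu hF h1)) v ^ (m - 1)) +
        N * (lam hF h1 ((frob hF h1).phi m)) v) * α n = n * α (m + n - 1)) (n : ℕ) :
    ∃ c : Fin (X.dim + 1) → RR X, α n = ∑ q, c q * α q := by
  have hdim := X.two_le_dim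
  induction n using Nat.strong_induction_on with
  | _ n ih =>
    rcases Nat.lt_or_ge n (X.dim + 1) with h | h
    · refine ⟨fun q => if q = ⟨n, h⟩ then 1 else 0, ?_⟩
      rw [Finset.sum_eq_single (⟨n, h⟩ : Fin (X.dim + 1))]
      · change α n = (if (⟨n, h⟩ : Fin (X.dim + 1)) = ⟨n, h⟩ then 1 else 0) * α n
        rw [if_pos rfl, one_mul]
      · intro q _ hq
        change (if q = ⟨n, h⟩ then (1 : RR X) else 0) * α q = 0
        rw [if_neg hq, zero_mul]
      · simp
    · obtain ⟨k, rfl⟩ := Nat.exists_eq_add_of_le h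
      have h2 := alpha_rel hF h1 hi P hPE v s N α H1 k
      have hlead : P.coeff (X.dim + 1) = 1 := by
        have h := hmon.coeff_natDegree
        rwa [hdeg] at h
      rw [Polynomial.sum_over_range _ (fun n => zero_mul _), hdeg, Finset.sum_range_succ, hlead,
        one_mul] at h2
      have h3 : ∀ j, ∃ c : Fin (X.dim + 1) → RR X, j < X.dim + 1 → α (j + k) = ∑ q, c q * α q := by
        intro j
        by_cases hj : j < X.dim + 1
        · obtain ⟨c, hc⟩ := ih (j + k) (by omega)
          exact ⟨c, fun _ => hc⟩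
        · exact ⟨0, fun h => absurd h hj⟩
      choose c hc using h3
      obtain ⟨c1, hc1⟩ := ih 1 (by omega)
      refine ⟨fun q => s * ((lam hF h1 (Eu hF h1)) v ^ k *
        P.derivative.eval ((lam hF h1 (Eu hF h1)) v)) * c1 q -
          ∑ j ∈ Finset.range (X.dim + 1), P.coeff j * c j q, ?_⟩
      have h4 : ∑ j ∈ Finset.range (X.dim + 1), P.coeff j * α (j + k) =
          ∑ q : Fin (X.dim + 1), (∑ j ∈ Finset.range (X.dim + 1), P.coeff j * c j q) * α q := by
        simp only [Finset.sum_mul]
        rw [Finset.sum_comm]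
        refine Finset.sum_congr rfl fun j hj => ?_
        rw [hc j (Finset.mem_range.mp hj), Finset.mul_sum]
        exact Finset.sum_congr rfl fun q _ => by ring
      have h5 : ∑ q : Fin (X.dim + 1), (s * ((lam hF h1 (Eu hF h1)) v ^ k *
          P.derivative.eval ((lam hF h1 (Eu hF h1)) v)) * c1 q -
            ∑ j ∈ Finset.range (X.dim + 1), P.coeff j * c j q) * α q =
          s * ((lam hF h1 (Eu hF h1)) v ^ k *
            P.derivative.eval ((lam hF h1 (Eu hF h1)) v)) * α 1 -
          ∑ j ∈ Finset.range (X.dim + 1), P.coeff j * α (j + k) := by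
        rw [h4, hc1, Finset.mul_sum, ← Finset.sum_sub_distrib]
        exact Finset.sum_congr rfl fun q _ => by ring
      rw [h5, ← h2]
      ring

/-- **[G2, X2-X4]** the sequence vanishes -/
theorem alpha_zero (hm : 2 ≤ excess X) (hi : 2 ≤ index X) (P : Polynomial (RR X))
    (hmon : P.Monic) (hdeg : P.natDegree = X.dim + 1) (hPE : aeval (Eu hF h1) P = 0)
    (hP0 : ∀ i < X.dim + 1, MvPowerSeries.constantCoeff (P.coeff i) =
      if i = excess X then - (PowerSeries.C (cq X) * PowerSeries.X) else 0)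
    (v : X.Prim) (s N : RR X) (α : ℕ → RR X)
    (H1 : ∀ m n, der hF h1 (Eu hF h1 ^ m) (α n) +
      (s * (m * (lam hF h1 (Eu hF h1)) v ^ (m - 1)) +
        N * (lam hF h1 ((frob hF h1).phi m)) v) * α n = n * α (m + n - 1))
    (D : ℕ)
    (H2 : ∀ j, (P * (Polynomial.X - Polynomial.C ((lam hF h1 (Eu hF h1)) v)) ^ D).sum
      (fun n c => c * ((n : RR X) * α (n - 1 + j))) = 0)
    (H3 : ∀ p < excess X, MvPowerSeries.constantCoeff (α p) = 0) (p : ℕ) : α p = 0 := by
  have hi0 : index X ≠ 0 := by omega
  have h0 := alpha_cc hF h1 hm hi P hmon hdeg hPE hP0 v s N α H1 D H2 H3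
  obtain ⟨b, hb⟩ := pow_basis hF h1 hi0
  choose c hc using exists_lin hF h1 hi0 P hmon hdeg hPE v s N α H1
  set l := (lam hF h1 (Eu hF h1)) v with hl
  have hpd : ∀ (i : Fin (X.dim + 1)) (f : RR X),
      MvPowerSeries.pderiv (PowerSeries ℂ) i f =
        (frob hF h1).der (QA.bas (consts hF h1) i) f := by
    intro i f
    have h2 : (frob hF h1).der (QA.bas (consts hF h1) i) f =
        ∑ k, (QA.bas (consts hF h1) i : AA hF h1) k *
          MvPowerSeries.pderiv (PowerSeries ℂ) k f := rfl
    rw [h2, Finset.sum_eq_single i]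
    · rw [QA.bas_apply, if_pos rfl, one_mul]
    · intro k _ hk
      rw [QA.bas_apply, if_neg hk, zero_mul]
    · intro h; exact absurd (Finset.mem_univ i) h
  have hder : ∀ (x : AA hF h1) (f : RR X), (frob hF h1).der x f =
      ∑ k : Fin (X.dim + 1), b.repr x k * der hF h1 (Eu hF h1 ^ (k : ℕ)) f := by
    intro x f
    have h2 : (frob hF h1).der x f = derL (frob hF h1) f x := rfl
    rw [h2]
    conv_lhs => rw [← b.sum_repr x]
    rw [map_sum]
    refine Finset.sum_congr rfl fun k _ => ?_
    rw [map_smul, smul_eq_mul, hb]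
    rfl
  have hE : ∀ (k n : ℕ), der hF h1 (Eu hF h1 ^ k) (α n) = n * α (k + n - 1) -
      (s * (k * l ^ (k - 1)) + N * (lam hF h1 ((frob hF h1).phi k)) v) * α n := by
    intro k n
    rw [← H1 k n]
    ring
  have hode := ode_zero (n := X.dim + 1) (K := PowerSeries ℂ) (N := X.dim + 1)
    (fun p => α p) (fun p => h0 p)
    (fun i p q => ∑ k : Fin (X.dim + 1), b.repr (QA.bas (consts hF h1) i) k *
      (((p : ℕ) : RR X) * c ((k : ℕ) + p - 1) q -
        if q = p then (s * (((k : ℕ) : RR X) * l ^ ((k : ℕ) - 1)) +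
          N * (lam hF h1 ((frob hF h1).phi (k : ℕ))) v) else 0)) (by
      intro i p
      rw [hpd, hder]
      simp only [Finset.sum_mul]
      rw [Finset.sum_comm]
      refine Finset.sum_congr rfl fun k _ => ?_
      rw [hE]
      have e1 : ∑ q : Fin (X.dim + 1), b.repr (QA.bas (consts hF h1) i) k *
          (((p : ℕ) : RR X) * c ((k : ℕ) + p - 1) q -
            if q = p then (s * (((k : ℕ) : RR X) * l ^ ((k : ℕ) - 1)) +
              N * (lam hF h1 ((frob hF h1).phi (k : ℕ))) v) else 0) * α q =
          b.repr (QA.bas (consts hF h1) i) k *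
            (((p : ℕ) : RR X) * (∑ q : Fin (X.dim + 1), c ((k : ℕ) + p - 1) q * α q) -
              ∑ q : Fin (X.dim + 1), (if q = p then (s * (((k : ℕ) : RR X) * l ^ ((k : ℕ) - 1)) +
                N * (lam hF h1 ((frob hF h1).phi (k : ℕ))) v) else 0) * α q) := by
        rw [Finset.mul_sum, ← Finset.sum_sub_distrib, Finset.mul_sum]
        exact Finset.sum_congr rfl fun q _ => by ring
      rw [e1, ← hc]
      congr 2
      rw [Finset.sum_eq_single p]
      · rw [if_pos rfl]
      · intro q _ hq
        rw [if_neg hq, zero_mul]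
      · simp)
  rw [hc p]
  exact Finset.sum_eq_zero fun q _ => by rw [hode q, mul_zero]

end spec

end Vale.Agent.P269.G2.H984
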