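import Vale.Agent.P269.G2I.H333.Ev0
import Vale.Agent.P269.G2I.H984.Alpha

/-!
# [G2] top: the induction on the number of primitive insertions
-/

set_option autoImplicit false

namespace Vale.Agent.P269.G2.H984

open Finset.HasAntidiagonal (antidiagonal)
open Vale.Agent.P269.CI Vale.Agent.P269.G1 Vale.Agent.P269.G1.H984 Vale.Agent.P269.G2.H333
open Polynomial (aeval)

section gen

theorem sum_map_coeff {R K : Type*} [CommRing R] [CommRing K] (φ : R →+* K) (p : Polynomial R)
    (h : ℕ → K) : ∑ n ∈ p.support, φ (p.coeff n) * h n = (p.map φ).sum fun n c => c * h n := by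
  rw [Polynomial.sum_over_range' _ (fun n => zero_mul _) (p.natDegree + 1)
      (Nat.lt_succ_of_le Polynomial.natDegree_map_le)]
  simp only [Polynomial.coeff_map]
  refine Finset.sum_subset (fun n hn => ?_) fun n _ hn => ?_
  · rw [Finset.mem_range]
    exact Nat.lt_succ_of_le (Polynomial.le_natDegree_of_mem_supp n hn)
  · rw [Polynomial.notMem_support_iff] at hn
    rw [hn, map_zero, zero_mul]

variable {ι κ A : Type*} [CommRing A]

/-- bounded induction over the order of vanishing -/
theorem all_zero_le {N : Type*} (a : N → MvPowerSeries (ι ⊕ κ) A) (N0 : ℕ)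
    (h : ∀ w : List κ, w.length ≤ N0 →
      (∀ n, Van (fun v => DD (Sum.inr v)) ev0 w.length (a n)) →
      ∀ n, ev0 (dl (fun v => DD (Sum.inr v)) w (a n)) = 0) (w : List κ) (hw : w.length ≤ N0)
    (n : N) : ev0 (dl (fun v => DD (Sum.inr v)) w (a n)) = 0 := by
  have main : ∀ (k : ℕ), k ≤ N0 + 1 → ∀ (n : N), Van (fun v => DD (Sum.inr v)) ev0 k (a n) := by
    intro k
    induction k with
    | zero =>
      intro _ n u hu
      omega
    | succ k ih =>
      intro hk n u hu
      rcases Nat.lt_succ_iff_lt_or_eq.1 hu with h1 | h1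
      · exact ih (by omega) n u h1
      · exact h u (by omega) (fun m => h1 ▸ ih (by omega) m) n
  exact main (w.length + 1) (by omega) n w (Nat.lt_succ_self _)

/-- the coefficients of a series whose derivatives up to order `N0` in the directions of `κ`
vanish at the zeros of the coordinates in `κ` -/
theorem coeff_zero_of_dl [Fintype κ] [Algebra ℚ A] (N0 : ℕ) : ∀ (f : MvPowerSeries (ι ⊕ κ) A)
    (_ : ∀ w : List κ, w.length ≤ N0 → ev0 (dl (fun v => DD (Sum.inr v)) w f) = 0)
    (γ : (ι ⊕ κ) →₀ ℕ) (_ : ∑ v, γ (Sum.inr v) ≤ N0), MvPowerSeries.coeff γ f = 0 := by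
  classical
  induction N0 with
  | zero =>
    intro f hf γ hγ
    have h0 : ∀ v, γ (Sum.inr v) = 0 := fun v =>
      (Finset.sum_eq_zero_iff.1 (Nat.le_zero.1 hγ)) v (Finset.mem_univ v)
    have h1 := hf [] le_rfl
    rw [dl_nil] at h1
    have h2 : γ = Finsupp.embDomain (Function.Embedding.inl (α := ι) (β := κ))
        (γ.comapDomain Sum.inl Sum.inl_injective.injOn) := by
      ext a
      rcases a with i | v
      · have := Finsupp.embDomain_apply_self (Function.Embedding.inl (α := ι) (β := κ))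
          (γ.comapDomain Sum.inl Sum.inl_injective.injOn) i
        exact this.symm
      · rw [h0 v]
        rw [Finsupp.embDomain_of_notMem_range]
        rintro ⟨i, hi⟩
        simp at hi
    rw [h2, ← coeff_ev0, h1, map_zero]
  | succ k ih =>
    intro f hf γ hγ
    by_cases hk : ∑ v, γ (Sum.inr v) ≤ k
    · exact ih f (fun w hw => hf w (by omega)) γ hk
    obtain ⟨v, hv⟩ : ∃ v, γ (Sum.inr v) ≠ 0 := by
      by_contra hcon
      push Not at hcon
      rw [Finset.sum_eq_zero fun v _ => hcon v] at hk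
      omega
    obtain ⟨γ', rfl⟩ : ∃ γ' : (ι ⊕ κ) →₀ ℕ, γ = γ' + Finsupp.single (Sum.inr v) 1 := by
      refine ⟨γ - Finsupp.single (Sum.inr v) 1, ?_⟩
      rw [tsub_add_cancel_of_le]
      intro a
      by_cases ha : a = Sum.inr v
      · subst ha
        rw [Finsupp.single_eq_same]
        omega
      · rw [Finsupp.single_eq_of_ne ha]
        exact Nat.zero_le _
    have hk' : ∑ u, γ' (Sum.inr u) ≤ k := by
      have e : ∀ u : κ, (γ' + Finsupp.single (Sum.inr v) 1 : (ι ⊕ κ) →₀ ℕ) (Sum.inr u) =
          γ' (Sum.inr u) + if u = v then 1 else 0 := by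
        intro u
        rw [Finsupp.add_apply]
        congr 1
        by_cases hu : u = v
        · subst hu; simp
        · rw [if_neg hu, Finsupp.single_eq_of_ne]
          intro hh
          exact hu (Sum.inr_injective hh)
      rw [Finset.sum_congr rfl fun u _ => e u, Finset.sum_add_distrib,
        Finset.sum_ite_eq' Finset.univ v, if_pos (Finset.mem_univ _)] at hγ
      omega
    have h3 := ih (DD (Sum.inr v) f) (fun w hw => hf (v :: w) (by simpa using hw)) γ' hk'
    rw [DD_apply, MvPowerSeries.coeff_pderiv] at h3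
    have h4 : ((γ' (Sum.inr v) : A) + 1) = algebraMap ℚ A ((γ' (Sum.inr v) : ℚ) + 1) := by
      simp
    rw [h4, mul_comm] at h3
    have h5 : algebraMap ℚ A (((γ' (Sum.inr v) : ℚ) + 1)⁻¹) *
        (algebraMap ℚ A ((γ' (Sum.inr v) : ℚ) + 1) *
          MvPowerSeries.coeff (γ' + Finsupp.single (Sum.inr v) 1) f) = 0 := by
      rw [h3, mul_zero]
    rw [← mul_assoc, ← map_mul, inv_mul_cancel₀ (by positivity), map_one, one_mul] at h5
    exact h5

end gen

section top

variable {X : CompleteIntersection} {F : ℕ → ℕ → List (Ins X) → ℂ}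

variable (hF : IsGW X F) (h1 : IsGenusOne F)

/-- functions on the full small phase space -/
abbrev RF (X : CompleteIntersection) := MvPowerSeries (Ix X) (PowerSeries ℂ)

/-- the coefficient `ρ^m_v` -/
noncomputable def rhoc (m : ℕ) (v : X.Prim) : RR X :=
  (1 - cst X (mu X (Sum.inr v))) * (m * (lam hF h1 (Eu hF h1)) v ^ (m - 1)) +
    (lam hF h1 ((frob hF h1).phi m)) v

/-- the iterated derivative in primitive directions -/
noncomputable def dP (w : List X.Prim) (f : RF X) : RF X :=
  dl (fun v : X.Prim => DD (A := PowerSeries ℂ) (Sum.inr v : Ix X)) w f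

/-- **[G2, top]** -/
theorem top_le (hm : 2 ≤ excess X) (hi : 2 ≤ index X) (P : Polynomial (RR X))
    (hmon : P.Monic) (hdeg : P.natDegree = X.dim + 1) (hPE : aeval (Eu hF h1) P = 0)
    (hP0 : ∀ i < X.dim + 1, MvPowerSeries.constantCoeff (P.coeff i) =
      if i = excess X then - (PowerSeries.C (cq X) * PowerSeries.X) else 0)
    (N0 : ℕ) (V : ℕ → Ix X → RF X) (a : ℕ → RF X)
    (hV : ∀ m i, ev0 (V m (Sum.inl i)) = (Eu hF h1 ^ m : AA hF h1) i)
    (hV0 : ∀ m b, ev0 (V m (Sum.inr b)) = 0)
    (hV1 : ∀ m v b, ev0 (MvPowerSeries.pderiv (PowerSeries ℂ) (Sum.inr v) (V m (Sum.inr b))) =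
      if v = b then rhoc hF h1 m v else 0)
    (hcl : ∀ m n, ∑ b, V m b * MvPowerSeries.pderiv (PowerSeries ℂ) b (a n) =
      n * a (m + n - 1))
    (chi : Polynomial (RF X))
    (hchi : ∀ j, chi.sum (fun n c => c * ((n : RF X) * a (n - 1 + j))) = 0)
    (hchi0 : ∀ v, chi.map ev0 = P * (Polynomial.X -
      Polynomial.C ((lam hF h1 (Eu hF h1)) v)) ^ Fintype.card X.Prim)
    (h0 : ∀ n, ev0 (a n) = 0)
    (h3 : ∀ w : List X.Prim, w ≠ [] → w.length ≤ N0 → ∀ p < excess X,
      MvPowerSeries.constantCoeff (dP w (a p)) = 0) (w : List X.Prim) (hw : w.length ≤ N0)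
    (n : ℕ) : ev0 (dP w (a n)) = 0 := by
  refine all_zero_le a N0 ?_ w hw n
  intro w hw hvan n
  rcases w with _ | ⟨v, w'⟩
  · exact h0 n
  set w : List X.Prim := v :: w' with hwdef
  have hder : ∀ i : Ix X, IsDer (DD (A := PowerSeries ℂ) i) := fun i => isDer_DD i
  have hnat : ∀ (f : RF X) (k : ℕ), ev0 (dl (fun v : X.Prim => DD (A := PowerSeries ℂ)
      (Sum.inr v : Ix X)) w (f * a k)) = ev0 f * ev0 (dl (fun v : X.Prim =>
        DD (A := PowerSeries ℂ) (Sum.inr v : Ix X)) w (a k)) := fun f k =>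
    dl_mul_of_van (fun v => hder (Sum.inr v)) (hvan k) f w le_rfl
  refine alpha_zero hF h1 hm hi P hmon hdeg hPE hP0 v
    ((w.map fun u => 1 - cst X (mu X (Sum.inr u))).sum) (w.length : RR X)
    (fun k => ev0 (dl (fun v : X.Prim => DD (A := PowerSeries ℂ) (Sum.inr v : Ix X)) w (a k)))
    ?_ (Fintype.card X.Prim) ?_ ?_ n
  · intro m k
    have e1 := dl_field_ev0 (V m) (fun v => rhoc hF h1 m v) (hV0 m) (hV1 m) (a k) w (hvan k)
    have hcl' : ∑ i, V m i * MvPowerSeries.pderiv (PowerSeries ℂ) i (a k) = (k : RF X) *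
      a (m + k - 1) := hcl m k
    rw [hcl', hnat, map_natCast] at e1
    rw [e1]
    have e2 : (w.map fun v => rhoc hF h1 m v).sum =
        (w.map fun u => 1 - cst X (mu X (Sum.inr u))).sum *
          (m * (lam hF h1 (Eu hF h1)) v ^ (m - 1)) +
        (w.length : RR X) * (lam hF h1 ((frob hF h1).phi m)) v := by
      clear_value w
      clear e1 hnat hvan hw hwdef
      induction w with
      | nil => simp
      | cons u w ih =>
        rw [List.map_cons, List.sum_cons, ih, List.map_cons, List.sum_cons, List.length_cons]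
        have e3 : rhoc hF h1 m u = (1 - cst X (mu X (Sum.inr u))) *
          (m * (lam hF h1 (Eu hF h1)) v ^ (m - 1)) +
            (lam hF h1 ((frob hF h1).phi m)) v := rfl
        rw [e3]
        push_cast
        ring
    rw [e2]
    refine congrArg (· + _) ?_
    refine Finset.sum_congr rfl fun i _ => ?_
    rw [hV]
  · intro j
    rw [← hchi0 v, ← sum_map_coeff]
    have e1 := congrArg (fun f => ev0 (dl (fun v : X.Prim => DD (A := PowerSeries ℂ)
      (Sum.inr v : Ix X)) w f)) (hchi j)
    rw [Polynomial.sum_def] at e1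
    rw [dl_sum (fun v => hder (Sum.inr v)), dl_zero (fun v => hder (Sum.inr v)), map_zero,
      map_sum] at e1
    rw [← e1]
    refine Finset.sum_congr rfl fun k _ => ?_
    rw [← mul_assoc (chi.coeff k), hnat, map_mul, map_natCast]
    ring
  · intro p hp
    rw [constantCoeff_ev0]
    exact h3 w (by simp [hwdef]) hw p hp

end top

end Vale.Agent.P269.G2.H984
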