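import Vale.Agent.P269.G1I.All
import Vale.Agent.P269.G1I.H660.Loop0
import Vale.Agent.P269.G2I.Defs
import Vale.Agent.P269.H597.Final

/-!
# [G2, Yl, Ym] dimension count and parity of the number of primitive insertions
-/

set_option autoImplicit false

namespace Vale.Agent.P269.G2.H984

open Finset.HasAntidiagonal (antidiagonal)
open Vale.Agent.P269.CI Vale.Agent.P269.H597
open Vale.Agent.P269.G1.H660.Lp (c1pow_amb_prim c1pow_prim_amb)

variable {X : CompleteIntersection} {F : ℕ → ℕ → List (Ins X) → ℂ}

/-- **[Yl]** dimension count (the sum of the two gradings) -/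
theorem vir_weight (hF : IsGW X F) (p d : ℕ) (w : List X.Prim)
    (h : 2 * (index X * d) ≠ 2 * (p : ℤ) + w.length * ((X.dim : ℤ) - 2)) :
    virasoro X F (p + 1) 1 d (w.map fun v => (Sum.inr v, 0)) = 0 := by
  rw [virasoro_succ]
  refine Coh.HW_vir (degData X) (weights hF) p 1 d _ ?_
  unfold Coh.vd
  intro h2
  apply h
  have h3 : ((w.map fun v => ((Sum.inr v, 0) : Ins X)).map (Coh.wt (dgr X))).sum =
      w.length * ((X.dim : ℤ) - 2) := by
    clear h h2
    induction w with
    | nil => simp
    | cons v w ih =>
      rw [List.map_cons, List.map_cons, List.sum_cons, ih, List.length_cons]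
      have h4 : Coh.wt (dgr X) ((Sum.inr v, 0) : Ins X) = (X.dim : ℤ) - 2 := by
        unfold Coh.wt
        rw [dgr_inr]
        push_cast
        ring
      rw [h4]
      push_cast
      ring
  rw [h3] at h2
  push_cast at h2
  linarith

/-- the number of primitive insertions -/
def npr (L : List (Ins X)) : ℕ := L.countP fun x => x.1.isRight

theorem npr_cons (x : Ins X) (L : List (Ins X)) :
    npr (x :: L) = npr L + if x.1.isRight then 1 else 0 := by
  unfold npr
  rw [List.countP_cons]

theorem npr_set (L : List (Ins X)) (j : ℕ) (hj : j < L.length) (y : Ins X)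
    (h : y.1.isRight = L[j].1.isRight) : npr (L.set j y) = npr L := by
  induction L generalizing j with
  | nil => simp at hj
  | cons x L ih =>
    cases j with
    | zero =>
      rw [List.set_cons_zero, npr_cons, npr_cons]
      rw [List.getElem_cons_zero] at h
      rw [h]
    | succ j =>
      rw [List.set_cons_succ, npr_cons, npr_cons, ih j (by simpa using hj) (by simpa using h)]

/-- `A` is supported on lists with a number of primitive insertions of the parity of `e` -/
def Par (e : ℕ) (A : List (Ins X) → ℂ) : Prop := ∀ M, (npr M + e) % 2 = 1 → A M = 0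

theorem Par.cons {e : ℕ} {A : List (Ins X) → ℂ} (h : Par e A) (x : Ins X) :
    Par (e + if x.1.isRight then 1 else 0) (fun M => A (x :: M)) := by
  intro M hM
  refine h _ ?_
  rw [npr_cons]
  omega

theorem par_shuffle (L : List (Ins X)) : ∀ {e f : ℕ} {A B : List (Ins X) → ℂ} (_ : Par e A)
    (_ : Par f B) (_ : (npr L + (e + f)) % 2 = 1), shuffle X L A B = 0 := by
  induction L with
  | nil =>
    intro e f A B hA hB h
    change A [] * B [] = 0
    have h0 : npr (X := X) [] = 0 := rfl
    rw [h0] at h
    rcases Nat.mod_two_eq_zero_or_one e with h1 | h1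
    · rw [hB [] (by rw [h0]; omega), mul_zero]
    · rw [hA [] (by rw [h0]; omega), zero_mul]
  | cons x L ih =>
    intro e f A B hA hB h
    change shuffle X L (fun M => A (x :: M)) B +
      shuffle X L (fun M => sgnL X (par X x.1) M * A M) (fun M => B (x :: M)) = 0
    rw [npr_cons] at h
    have hA' : Par e (fun M => sgnL X (par X x.1) M * A M) := by
      intro M hM
      change sgnL X (par X x.1) M * A M = 0
      rw [hA M hM, mul_zero]
    rw [ih (hA.cons x) hB (by omega), ih hA' (hB.cons x) (by omega), add_zero]

theorem c1pow_side {i : ℕ} {a b : Ix X} (h : c1pow X i a b ≠ 0) : b.isRight = a.isRight := by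
  rcases a with a | a <;> rcases b with b | b
  · rfl
  · exact absurd (c1pow_amb_prim X i a b) h
  · exact absurd (c1pow_prim_amb X i a b) h
  · rfl

theorem pairingInv_side {a b : Ix X} (h : pairingInv X a b ≠ 0) : b.isRight = a.isRight := by
  rcases a with a | a <;> rcases b with b | b
  · rfl
  · exact absurd rfl h
  · exact absurd rfl h
  · rfl

theorem par_linTerm (K : ℕ) (x : Ins X) (G : Ins X → ℂ)
    (hG : ∀ y : Ins X, y.1.isRight = x.1.isRight → G y = 0) : linTerm X K x G = 0 := by
  unfold linTerm
  refine Finset.sum_eq_zero fun i _ => Finset.sum_eq_zero fun b _ => ?_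
  split_ifs with h
  · by_cases h1 : c1pow X i x.1 b = 0
    · rw [h1, mul_zero, zero_mul]
    · rw [hG (b, x.2 + K - 1 - i) (c1pow_side h1), mul_zero]
  · rfl

/-- the coefficients with an odd number of primitive insertions -/
theorem par_virasoro (hP : ∀ g d (L : List (Ins X)), npr L % 2 = 1 → F g d L = 0) (K g d : ℕ)
    (hg : g ≠ 0) (L : List (Ins X)) (hL : npr L % 2 = 1) : virasoro X F K g d L = 0 := by
  have hne : L ≠ [] := by
    rintro rfl
    simp [npr] at hL
  unfold virasoro
  have e1 : (∑ j : Fin L.length, linTerm X K (L.get j) (fun x => F g d (L.set j x))) = 0 := by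
    refine Finset.sum_eq_zero fun j _ => par_linTerm K _ _ fun y hy => ?_
    refine hP g d _ ?_
    rw [npr_set L j j.2 y (by simpa using hy)]
    exact hL
  have e2 : linTerm X K (one X, 1) (fun x => F g d (x :: L)) = 0 := by
    refine par_linTerm K _ _ fun y hy => ?_
    refine hP g d _ ?_
    rw [npr_cons, hy]
    exact hL
  have e3 : ∀ m ∈ Finset.range (K - 1), ∀ i ∈ Finset.range (K - 1 - m), ∀ a b c : Ix X,
      (-1) ^ (m + 1) * esym K i (mu X a - m - 1 / 2) * pairingInv X a b * c1pow X i a c *
      ((∑ u ∈ antidiagonal g, ∑ v ∈ antidiagonal d, shuffle X L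
        (fun M => F u.1 v.1 ((b, m) :: M)) (fun M => F u.2 v.2 ((c, K - 2 - m - i) :: M))) +
      (if g = 0 then 0 else F (g - 1) d ((c, K - 2 - m - i) :: (b, m) :: L))) = 0 := by
    intro m _ i _ a b c
    by_cases h1 : pairingInv X a b = 0
    · rw [h1, mul_zero, zero_mul, zero_mul]
    by_cases h2 : c1pow X i a c = 0
    · rw [h2, mul_zero, zero_mul]
    have hbc : c.isRight = b.isRight := (c1pow_side h2).trans (pairingInv_side h1).symm
    have hpar : ∀ g d, Par (X := X) 0 (F g d) := fun g d M hM => hP g d M (by simpa using hM)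
    rw [if_neg hg]
    have h3 : F (g - 1) d ((c, K - 2 - m - i) :: (b, m) :: L) = 0 := by
      refine hP _ _ _ ?_
      rw [npr_cons, npr_cons]
      change (npr L + (if b.isRight then 1 else 0) + (if c.isRight then 1 else 0)) % 2 = 1
      rw [hbc]
      split_ifs
      · omega
      · exact hL
    rw [h3, add_zero]
    rw [Finset.sum_eq_zero fun u _ => Finset.sum_eq_zero fun v _ => ?_, mul_zero]
    refine par_shuffle L ((hpar u.1 v.1).cons (b, m)) ((hpar u.2 v.2).cons (c, K - 2 - m - i)) ?_
    change (npr L + ((0 + if b.isRight then 1 else 0) +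
      (0 + if c.isRight then 1 else 0))) % 2 = 1
    rw [hbc]
    split_ifs
    · omega
    · exact hL
  rw [e1, e2, Finset.sum_eq_zero fun m hm => Finset.sum_eq_zero fun i hi =>
    Finset.sum_eq_zero fun a _ => Finset.sum_eq_zero fun b _ => Finset.sum_eq_zero fun c _ =>
      e3 m hm i hi a b c, if_neg (fun h => hg h.1)]
  have e4 : ∀ x : ℂ, emptyTerm X x L = 0 := by
    intro x
    cases L with
    | nil => exact absurd rfl hne
    | cons y L => rfl
  rw [e4]
  simp

/-- **[Ym]** from `mono4` -/
theorem vir_odd (h1 : IsGenusOneFull F) (h3 : 3 ≤ excess X) (p d : ℕ) (w : List X.Prim)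
    (hw : w.length % 2 = 1) :
    virasoro X F (p + 1) 1 d (w.map fun v => (Sum.inr v, 0)) = 0 := by
  refine par_virasoro (fun g d L hL => h1.mono4 h3 g d L ?_) (p + 1) 1 d one_ne_zero _ ?_
  · rw [← List.countP_eq_length_filter]
    exact hL
  · have h4 : npr (w.map fun v => ((Sum.inr v, 0) : Ins X)) = w.length := by
      clear hw
      induction w with
      | nil => rfl
      | cons v w ih =>
        rw [List.map_cons, npr_cons, ih, List.length_cons]
        rfl
    rw [h4]
    exact hw

end Vale.Agent.P269.G2.H984
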