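import Vale.Agent.P269.G1I.All
import Vale.Agent.P269.G2I.BSpec1
import Vale.Agent.P269.G2I.H984.SBEuler
import Vale.Agent.P269.G2I.H984.Wt

/-!
# [G2, J4b] the difference of the two gradings
-/

set_option autoImplicit false
set_option linter.unusedSectionVars false

namespace Vale.Agent.P269.G2.H984.Ty

open Finset.HasAntidiagonal (antidiagonal)
open Vale.Agent.P269.CI Vale.Agent.P269.H597 Vale.Agent.P269.H597.Coh

section

variable {K : Type*} [CommRing K] {ι : Type*} [Fintype ι] [DecidableEq ι]

/-- a grading of the classes -/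
structure DW (D : Coh K ι) (dg : ι → ℤ) (r : ℤ) : Prop where
  one : dg D.one = 0
  R : ∀ a b, D.R a b ≠ 0 → dg b = dg a + 2
  eta : ∀ a b, D.eta a b ≠ 0 → dg a + dg b = 2 * r
  etai : ∀ a b, D.etai a b ≠ 0 → dg a + dg b = 2 * r

variable {D : Coh K ι} {F : ℕ → ℕ → List (ι × ℕ) → K} {dg : ι → ℤ} {r nu : ℤ}

theorem Rp_dg (hD : DW D dg r) (i : ℕ) (a c : ι) (h : D.Rp i a c ≠ 0) :
    dg c = dg a + 2 * i := by
  induction i generalizing a with
  | zero =>
    rw [Rp_zero] at h
    have : a = c := by
      by_contra h2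
      rw [if_neg h2] at h
      exact h rfl
    rw [this]; simp
  | succ i ih =>
    rw [Rp_succ] at h
    obtain ⟨b, _, hb⟩ := Finset.exists_ne_zero_of_sum_ne_zero h
    have h1 := hD.R a b (left_ne_zero_of_mul hb)
    have h2 := ih b (right_ne_zero_of_mul hb)
    push_cast
    omega

theorem Aop_wt (hD : DW D dg r) (k : ℕ) (x j : ι × ℕ)
    (h : D.Aop k (Finsupp.single x 1) j ≠ 0) : wt dg j = wt dg x + 2 * k := by
  rw [Aop_single, Finsupp.finsetSum_apply] at h
  obtain ⟨i, hi, h⟩ := Finset.exists_ne_zero_of_sum_ne_zero h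
  rw [Finsupp.finsetSum_apply] at h
  obtain ⟨c, _, h⟩ := Finset.exists_ne_zero_of_sum_ne_zero h
  by_cases hle : i ≤ x.2 + k
  · rw [if_pos hle, Finsupp.smul_apply, smul_eq_mul] at h
    have h1 := left_ne_zero_of_mul h
    have h2 := right_ne_zero_of_mul h
    rw [Finsupp.single_apply] at h2
    have h3 : (c, x.2 + k - i) = j := by
      by_contra h4
      rw [if_neg h4] at h2
      exact h2 rfl
    have h5 := Rp_dg hD i x.1 c (right_ne_zero_of_mul h1)
    rw [← h3]
    unfold wt
    simp only
    rw [h5]
    push_cast [Nat.cast_sub hle]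
    ring
  · rw [if_neg hle] at h
    simp at h

theorem HW_lin (hD : DW D dg r) (k : ℕ) {G : List (ι × ℕ) → K} {w : ℤ}
    (hG : HW (wt dg) w G) : HW (wt dg) (w - 2 * k) (D.lin k G) := by
  intro L hL
  unfold lin
  have h1 := hG.rep (fun i => D.Aop k (Finsupp.single i 1)) (δ := 2 * k)
    (fun i j h => Aop_wt hD k i j h) L hL
  have h2 := hG.ev (D.Aop k (Finsupp.single (D.one, 1) 1)) (wt dg (D.one, 1)) (δ := 2 * k)
    (fun j h => Aop_wt hD k _ j h) L (by
      have : wt dg (D.one, 1) = 0 := by
        unfold wt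
        rw [hD.one]
        norm_num
      rw [this, zero_add]
      exact hL)
  rw [h1, h2, sub_zero]

theorem cf_dg (hD : DW D dg r) (k m i : ℕ) (a b c : ι) (h : D.cf k m i a b c ≠ 0) :
    dg b + dg c = 2 * r + 2 * i := by
  unfold cf at h
  have h1 := Rp_dg hD i a c (right_ne_zero_of_mul h)
  have h2 := hD.etai a b (right_ne_zero_of_mul (left_ne_zero_of_mul h))
  omega

theorem HW_zero (w : ℤ) : HW (wt dg) w (fun _ : List (ι × ℕ) => (0 : K)) := fun _ _ => rfl

theorem HW_vir (hD : DW D dg r) (hF : ∀ g d, HW (wt dg) (vd r nu g d) (F g d))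
    (k g d : ℕ) : HW (wt dg) (vd r nu g d - 2 * k) (D.vir F k g d) := by
  intro L hL
  unfold vir
  rw [HW_lin hD k (hF g d) L hL]
  have h1 : ∑ x ∈ antidiagonal g, ∑ y ∈ antidiagonal d,
      D.quad2 k (F x.1 y.1) (F x.2 y.2) L = 0 := by
    refine Finset.sum_eq_zero fun x hx => Finset.sum_eq_zero fun y hy => ?_
    have hx' : x.1 + x.2 = g := Finset.HasAntidiagonal.mem_antidiagonal.mp hx
    have hy' : y.1 + y.2 = d := Finset.HasAntidiagonal.mem_antidiagonal.mp hy
    unfold quad2
    refine Finset.sum_eq_zero fun m hm => Finset.sum_eq_zero fun i hi =>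
      Finset.sum_eq_zero fun a _ => Finset.sum_eq_zero fun b _ => Finset.sum_eq_zero fun c _ => ?_
    by_cases hc : D.cf k m i a b c = 0
    · rw [hc, zero_mul]
    have h2 := cf_dg hD k m i a b c hc
    have h3 := ((hF x.1 y.1).cons (b, m)).sh (par := D.ip) (LinearMap.mul K K)
      ((hF x.2 y.2).cons (c, k - 1 - m - i)) L
    simp only at h3
    rw [h3, mul_zero]
    intro h4
    apply hL
    rw [h4]
    have hm' := Finset.mem_range.mp hm
    have hi' := Finset.mem_range.mp hi
    have e1 : ((k - 1 - m - i : ℕ) : ℤ) = k - 1 - m - i := by omega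
    unfold vd wt
    simp only
    rw [e1, ← hx', ← hy']
    push_cast
    linear_combination -h2
  have h2 : (if g = 0 then 0 else D.loop (F (g - 1) d) k L) = 0 := by
    split
    · rfl
    · rename_i hg
      unfold loop
      refine Finset.sum_eq_zero fun m hm => Finset.sum_eq_zero fun i hi =>
        Finset.sum_eq_zero fun a _ => Finset.sum_eq_zero fun b _ => Finset.sum_eq_zero fun c _ => ?_
      by_cases hc : D.cf k m i a b c = 0
      · rw [hc, zero_mul]
      have h2 := cf_dg hD k m i a b c hc
      have h3 := ((hF (g - 1) d).cons (c, k - 1 - m - i)).cons (b, m) L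
      simp only at h3
      rw [h3, mul_zero]
      intro h4
      apply hL
      rw [h4]
      have hm' := Finset.mem_range.mp hm
      have hi' := Finset.mem_range.mp hi
      have e1 : ((k - 1 - m - i : ℕ) : ℤ) = k - 1 - m - i := by omega
      have e2 : ((g - 1 : ℕ) : ℤ) = g - 1 := by omega
      unfold vd wt
      simp only
      rw [e1, e2]
      linear_combination -h2
  have h3 : (if g = 0 ∧ d = 0 then qform (fun a b => ∑ c, D.Rp (k + 1) a c * D.eta c b) L
      else 0) = 0 := by
    split
    · rename_i hgd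
      unfold qform
      split
      · rename_i a b
        by_contra h4
        obtain ⟨c, _, hc⟩ := Finset.exists_ne_zero_of_sum_ne_zero h4
        have h5 := Rp_dg hD (k + 1) a c (left_ne_zero_of_mul hc)
        have h6 := hD.eta c b (right_ne_zero_of_mul hc)
        apply hL
        unfold vd wt
        simp only [List.map_cons, List.map_nil, List.sum_cons, List.sum_nil, hgd.1, hgd.2]
        push_cast at h5 ⊢
        linear_combination h6 - h5
      · rfl
    · rfl
  have h4 : (if k = 0 ∧ g = 1 ∧ d = 0 then D.kap * cst 1 L else 0) = 0 := by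
    split
    · rename_i hk
      cases L with
      | nil =>
        exfalso
        apply hL
        unfold vd
        simp [hk.1, hk.2.1, hk.2.2]
      | cons x L => simp
    · rfl
  rw [h1, h2, h3, h4]
  ring

end

variable {X : CompleteIntersection} {F : ℕ → ℕ → List (Ins X) → ℂ}

/-- the grading by the first Hodge index -/
def dgp (X : CompleteIntersection) (a : Ix X) : ℤ := 2 * (hp X a : ℤ)

theorem mu_hp {a b : Ix X} (h : CI.mu X a = - CI.mu X b) : dgp X a + dgp X b = 2 * (X.dim : ℤ) := by
  have e : ((dgp X a + dgp X b : ℤ) : ℂ) = ((2 * (X.dim : ℤ) : ℤ) : ℂ) := by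
    unfold CI.mu at h
    unfold dgp
    push_cast
    linear_combination 2 * h
  exact_mod_cast e

theorem dw : DW (coh X) (dgp X) X.dim where
  one := by
    change dgp X (Sum.inl 0) = 0
    simp [dgp, hp]
  R a b h := by
    rcases a with i | a <;> rcases b with j | b
    · have h' : c1 X (Sum.inl i) (Sum.inl j) ≠ 0 := h
      simp only [c1, hmul] at h'
      have h2 : (j : ℕ) = i + 1 := by
        by_contra h3
        apply h'
        rw [if_neg h3, mul_zero]
      simp only [dgp, hp]
      omega
    · simp [coh, c1, hmul] at h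
    · simp [coh, c1, hmul] at h
    · simp [coh, c1, hmul] at h
  eta a b h := by
    rcases a with i | a <;> rcases b with j | b
    · have h' : pairing X (Sum.inl i) (Sum.inl j) ≠ 0 := h
      simp only [pairing] at h'
      have h2 : (i : ℕ) + j = X.dim := by
        by_contra h3
        exact h' (if_neg h3)
      simp only [dgp, hp]
      omega
    · simp [coh, pairing] at h
    · simp [coh, pairing] at h
    · have h' : X.form a b ≠ 0 := h
      have h2 := X.form_hodge a b h'
      simp only [dgp, hp]
      omega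
  etai a b h := mu_hp (SBE.inv_mu a b h)

theorem weights_p (hF : IsGW X F) (g d : ℕ) :
    HW (Coh.wt (dgp X)) (Coh.vd X.dim (index X) g d) (F g d) := by
  intro L hL
  by_contra h
  apply hL
  have h1 := hF.grading_p g d L h
  have h3 : (L.map (Coh.wt (dgp X))).sum =
      2 * (L.map fun x => (x.2 : ℤ) + hp X x.1 - 1).sum := by
    clear h1 h hL
    induction L with
    | nil => simp
    | cons x L ih =>
      simp only [List.map_cons, List.sum_cons, ih]
      unfold Coh.wt dgp
      ring
  rw [h3, h1]
  unfold Coh.vd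
  ring

end Vale.Agent.P269.G2.H984.Ty

namespace Vale.Agent.P269.G2.H984

open Vale.Agent.P269.CI Vale.Agent.P269.H597

variable {X : CompleteIntersection} {F : ℕ → ℕ → List (Ins X) → ℂ}

/-- **[J4b]** the difference of the two gradings -/
theorem vir_types (hF : IsGW X F) (p d : ℕ) (w : List X.Prim)
    (h : 2 * (w.map X.hodgeP).sum ≠ w.length * X.dim) :
    virasoro X F (p + 1) 1 d (w.map fun v => (Sum.inr v, 0)) = 0 := by
  by_contra hcon
  have h1 : 2 * (index X * d) = 2 * (p : ℤ) + w.length * ((X.dim : ℤ) - 2) := by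
    by_contra h2
    exact hcon (vir_weight hF p d w h2)
  rw [virasoro_succ] at hcon
  refine hcon (Ty.HW_vir Ty.dw (Ty.weights_p hF) p 1 d _ ?_)
  unfold Coh.vd
  intro h2
  apply h
  have h3 : ((w.map fun v => ((Sum.inr v, 0) : Ins X)).map (Coh.wt (Ty.dgp X))).sum =
      2 * ((w.map X.hodgeP).sum : ℤ) - 2 * w.length := by
    clear h h1 h2 hcon
    induction w with
    | nil => simp
    | cons v w ih =>
      rw [List.map_cons, List.map_cons, List.sum_cons, ih, List.length_cons, List.map_cons,
        List.sum_cons]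
      have h4 : Coh.wt (Ty.dgp X) ((Sum.inr v, 0) : Ins X) = 2 * (X.hodgeP v : ℤ) - 2 := by
        simp [Coh.wt, Ty.dgp, hp]
      rw [h4]
      push_cast
      ring
  rw [h3] at h2
  have h5 : (2 * ((w.map X.hodgeP).sum : ℤ)) = w.length * (X.dim : ℤ) := by
    rw [Nat.cast_one, sub_self, zero_mul, zero_add] at h2
    linarith
  exact_mod_cast h5

end Vale.Agent.P269.G2.H984
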