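import Vale.Agent.P269.G1I.All
import Vale.Agent.P269.G2I.BSpec1
import Vale.Agent.P269.G2I.H984.SmallOneX
import Vale.Agent.P269.G2I.Model1
import Vale.Agent.P269.G2I.Model2
import Vale.Agent.P269.G2I.T.H333_YE
import Vale.Agent.P269.G2I.T.H521_SymVir
import Vale.Agent.P269.G2I.T.H598_Ya
import Vale.Agent.P269.G2I.T.H861_Yb
import Vale.Agent.P269.G2I.XSpec1

/-!
# [G2, cubics] the lowest order in the primitive directions
-/

set_option autoImplicit false

namespace Vale.Agent.P269.G2.H984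

open Vale.Agent.P269.CI Vale.Agent.P269.G1 Vale.Agent.P269.G1.H984 Vale.Agent.P269.G2.H333

variable {X : CompleteIntersection} {F : ℕ → ℕ → List (Ins X) → ℂ}

section

variable (hF : IsGW X F) (h1 : IsGenusOne F)

/-- the leading terms are multiples of the one of `a 1` -/
theorem top_key (W : ℕ → X.Prim → Ix X → RF X) (a : ℕ → RF X)
    (hW : ∀ m v b, ev0 (W m v (Sum.inr b)) =
      if v = b then (lam hF h1 (Eu hF h1)) v ^ m else 0)
    (hX : ∀ n v, MvPowerSeries.pderiv (PowerSeries ℂ) (Sum.inr v : Ix X) (a n) =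
      (n : RF X) * ∑ b, W (n - 1) v b * MvPowerSeries.pderiv (PowerSeries ℂ) b (a 1))
    (v : X.Prim) (w' : List X.Prim)
    (hvan : ∀ n, Van (fun v : X.Prim => DD (A := PowerSeries ℂ) (Sum.inr v : Ix X)) ev0
      (v :: w').length (a n)) (n : ℕ) :
    ev0 (dP (v :: w') (a n)) = (n : RR X) * (lam hF h1 (Eu hF h1)) v ^ (n - 1) *
      ev0 (dP (v :: w') (a 1)) := by
  have hder : ∀ i : Ix X, IsDer (DD (A := PowerSeries ℂ) i) := fun i => isDer_DD i
  have hderv : ∀ v : X.Prim, IsDer (DD (A := PowerSeries ℂ) (Sum.inr v : Ix X)) :=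
    fun v => hder (Sum.inr v)
  set l := (lam hF h1 (Eu hF h1)) v with hl
  change ev0 (dl (fun v : X.Prim => DD (A := PowerSeries ℂ) (Sum.inr v : Ix X))
      (v :: w') (a n)) = (n : RR X) * l ^ (n - 1) *
      ev0 (dl (fun v : X.Prim => DD (A := PowerSeries ℂ) (Sum.inr v : Ix X)) (v :: w') (a 1))
  have hv1 : Van (fun v : X.Prim => DD (A := PowerSeries ℂ) (Sum.inr v : Ix X)) ev0
      (w'.length + 1) (a 1) := hvan 1
  have e0 : DD (A := PowerSeries ℂ) (Sum.inr v : Ix X) (a n) =
      (n : RF X) * ∑ b, W (n - 1) v b * DD (A := PowerSeries ℂ) b (a 1) := hX n v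
  have evan : ∀ b : Ix X, Van (fun v : X.Prim => DD (A := PowerSeries ℂ) (Sum.inr v : Ix X))
      ev0 w'.length (DD (A := PowerSeries ℂ) b (a 1)) := by
    intro b
    rcases b with i | b
    · intro u hu
      have hcomm : ∀ (u : List X.Prim) (f : RF X),
          dl (fun v : X.Prim => DD (A := PowerSeries ℂ) (Sum.inr v : Ix X)) u
            (DD (A := PowerSeries ℂ) (Sum.inl i : Ix X) f) =
          DD (A := PowerSeries ℂ) (Sum.inl i : Ix X)
            (dl (fun v : X.Prim => DD (A := PowerSeries ℂ) (Sum.inr v : Ix X)) u f) := by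
        intro u
        induction u with
        | nil => intro f; rfl
        | cons x u ih => intro f; rw [dl_cons, dl_cons, DD_comm, ih]
      rw [hcomm, ev0_DD, hv1 u (by omega), map_zero]
    · exact hv1.deriv b
  have hpad : ∀ i : Fin (X.dim + 1),
      ev0 (dl (fun v : X.Prim => DD (A := PowerSeries ℂ) (Sum.inr v : Ix X)) w'
        (DD (A := PowerSeries ℂ) (Sum.inl i : Ix X) (a 1))) = 0 := by
    intro i
    have hcomm : ∀ (u : List X.Prim) (f : RF X),
        dl (fun v : X.Prim => DD (A := PowerSeries ℂ) (Sum.inr v : Ix X)) u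
          (DD (A := PowerSeries ℂ) (Sum.inl i : Ix X) f) =
        DD (A := PowerSeries ℂ) (Sum.inl i : Ix X)
          (dl (fun v : X.Prim => DD (A := PowerSeries ℂ) (Sum.inr v : Ix X)) u f) := by
      intro u
      induction u with
      | nil => intro f; rfl
      | cons x u ih => intro f; rw [dl_cons, dl_cons, DD_comm, ih]
    rw [hcomm, ev0_DD, hv1 w' (Nat.lt_succ_self _), map_zero]
  have e1 : ev0 (dl (fun v : X.Prim => DD (A := PowerSeries ℂ) (Sum.inr v : Ix X)) w'
      (∑ b, W (n - 1) v b * DD (A := PowerSeries ℂ) b (a 1))) = l ^ (n - 1) *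
      ev0 (dl (fun v : X.Prim => DD (A := PowerSeries ℂ) (Sum.inr v : Ix X)) (v :: w')
        (a 1)) := by
    rw [dl_sum hderv, map_sum]
    have e2 : ∀ b : Ix X, ev0 (dl (fun v : X.Prim => DD (A := PowerSeries ℂ)
        (Sum.inr v : Ix X)) w' (W (n - 1) v b * DD (A := PowerSeries ℂ) b (a 1))) =
        ev0 (W (n - 1) v b) * ev0 (dl (fun v : X.Prim => DD (A := PowerSeries ℂ)
          (Sum.inr v : Ix X)) w' (DD (A := PowerSeries ℂ) b (a 1))) := fun b =>
      dl_mul_of_van hderv (evan b) _ w' le_rfl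
    rw [Finset.sum_congr rfl fun b _ => e2 b, Fintype.sum_sum_type,
      Finset.sum_eq_zero fun i _ => by rw [hpad i, mul_zero], zero_add,
      Finset.sum_eq_single v]
    · rw [hW, if_pos rfl]
      rfl
    · intro b _ hb
      rw [hW, if_neg (Ne.symm hb), zero_mul]
    · intro h; exact absurd (Finset.mem_univ v) h
  have e3 : ev0 (dl (fun v : X.Prim => DD (A := PowerSeries ℂ) (Sum.inr v : Ix X)) w'
      ((n : RF X) * ∑ b, W (n - 1) v b * DD (A := PowerSeries ℂ) b (a 1))) = (n : RR X) *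
      ev0 (dl (fun v : X.Prim => DD (A := PowerSeries ℂ) (Sum.inr v : Ix X)) w'
        (∑ b, W (n - 1) v b * DD (A := PowerSeries ℂ) b (a 1))) := by
    have h := congrArg ev0 (dP_nat w' n
      (∑ b, W (n - 1) v b * DD (A := PowerSeries ℂ) b (a 1)))
    rw [map_mul, map_natCast] at h
    exact h
  rw [dl_cons, e0, e3, e1, mul_assoc]

/-- **[G2, top]** only `L_1`, the lower orders being known -/
theorem top_rel (hi : index X ≠ 0) (N0 : ℕ) (V : ℕ → Ix X → RF X)
    (W : ℕ → X.Prim → Ix X → RF X) (a : ℕ → RF X)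
    (hV : ∀ m i, ev0 (V m (Sum.inl i)) = (Eu hF h1 ^ m : AA hF h1) i)
    (hV0 : ∀ m b, ev0 (V m (Sum.inr b)) = 0)
    (hV1 : ∀ m v b, ev0 (MvPowerSeries.pderiv (PowerSeries ℂ) (Sum.inr v) (V m (Sum.inr b))) =
      if v = b then rhoc hF h1 m v else 0)
    (hcl : ∀ m, ∑ b, V m b * MvPowerSeries.pderiv (PowerSeries ℂ) b (a 1) = a m)
    (hW : ∀ m v b, ev0 (W m v (Sum.inr b)) =
      if v = b then (lam hF h1 (Eu hF h1)) v ^ m else 0)
    (hX : ∀ n v, MvPowerSeries.pderiv (PowerSeries ℂ) (Sum.inr v : Ix X) (a n) =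
      (n : RF X) * ∑ b, W (n - 1) v b * MvPowerSeries.pderiv (PowerSeries ℂ) b (a 1))
    (h0 : ∀ n, ev0 (a n) = 0)
    (h3 : ∀ w : List X.Prim, w ≠ [] → w.length ≤ N0 →
      (∀ w' : List X.Prim, w'.length < w.length → ∀ n, ev0 (dP w' (a n)) = 0) →
      MvPowerSeries.constantCoeff (dP w (a 1)) = 0) (w : List X.Prim) (hw : w.length ≤ N0)
    (n : ℕ) : ev0 (dP w (a n)) = 0 := by
  refine all_zero_le a N0 ?_ w hw n
  intro w hw hvan n
  rcases w with _ | ⟨v, w'⟩
  · exact h0 n
  have key := top_key hF h1 W a hW hX v w' hvan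
  have hone : ev0 (dP (v :: w') (a 1)) = 0 := by
    refine one_zero hF h1 hi _ (fun m => (m : RR X) * (lam hF h1 (Eu hF h1)) v ^ (m - 1) -
      ((v :: w').map fun v => rhoc hF h1 m v).sum) ?_ ?_
    · intro m
      have e1 := dl_field_ev0 (V m) (fun v => rhoc hF h1 m v) (hV0 m) (hV1 m) (a 1) (v :: w')
        (hvan 1)
      have hcl' : ∑ i, V m i * MvPowerSeries.pderiv (PowerSeries ℂ) i (a 1) = a m := hcl m
      have e0 : ev0 (dl (fun v : X.Prim => DD (A := PowerSeries ℂ) (Sum.inr v : Ix X))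
          (v :: w') (a m)) = _ := key m
      rw [hcl', e0] at e1
      have e2 : Vale.Agent.P269.G1.der hF h1 (Eu hF h1 ^ m) (ev0 (dP (v :: w') (a 1))) =
          ∑ i, ev0 (V m (Sum.inl i)) *
          MvPowerSeries.pderiv (PowerSeries ℂ) i (ev0 (dl (fun v : X.Prim =>
            DD (A := PowerSeries ℂ) (Sum.inr v : Ix X)) (v :: w') (a 1))) := by
        rw [Vale.Agent.P269.G1.der]
        exact Finset.sum_congr rfl fun i _ => by rw [hV]; rfl
      rw [e2, sub_mul, e1]
      change _ = _ - _ * ev0 (dl (fun v : X.Prim => DD (A := PowerSeries ℂ)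
        (Sum.inr v : Ix X)) (v :: w') (a 1))
      ring
    · rw [constantCoeff_ev0]
      exact h3 (v :: w') (by simp) hw fun w'' hw'' n => hvan n w'' hw''
  have e := key n
  rw [hone, mul_zero] at e
  exact e

end

end Vale.Agent.P269.G2.H984

namespace Vale.Agent.P269.G2.H984

open Vale.Agent.P269.CI Vale.Agent.P269.G2
open Vale.Agent.P269.G1 (RR ser cst lamc Eu lam AA cq)
open Vale.Agent.P269.G2.H333 (ev0 isDer_DD)

variable {X : CompleteIntersection} {F : ℕ → ℕ → List (Ins X) → ℂ}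

/-- the derivatives of `a_n` in the primitive directions -/
theorem aM_pd (hF : IsGW X F) (he : Even X.dim) (h1 : IsGenusOneFull F) (hX : 3 ≤ X.dim)
    (n : ℕ) (v : X.Prim) : MvPowerSeries.pderiv (PowerSeries ℂ) (Sum.inr v : Ix X)
      (phi X (aM hF he n)) = (n : RF X) * ∑ b, phi X ((EM hF he ^ (n - 1) *
        QA.bas (consts hF he) (Sum.inr v) : AM hF he) b) *
        MvPowerSeries.pderiv (PowerSeries ℂ) b (phi X (aM hF he 1)) := by
  have h := congrArg (phi X) (aM_der hF he h1 hX (QA.bas (consts hF he) (Sum.inr v)) n)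
  rw [der_bas, phi_pd, map_mul, map_natCast] at h
  rw [h]
  congr 1
  change phi X (∑ b, (EM hF he ^ (n - 1) * QA.bas (consts hF he) (Sum.inr v) : AM hF he) b *
    pd b (aM hF he 1)) = _
  rw [map_sum]
  refine Finset.sum_congr rfl fun b _ => ?_
  rw [map_mul, phi_pd]

/-- the derivatives of `a_1` along the powers of the Euler field -/
theorem aM_field (hF : IsGW X F) (he : Even X.dim) (h1 : IsGenusOneFull F) (hX : 3 ≤ X.dim)
    (m : ℕ) : ∑ b, phi X ((EM hF he ^ m : AM hF he) b) *
      MvPowerSeries.pderiv (PowerSeries ℂ) b (phi X (aM hF he 1)) = phi X (aM hF he m) := by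
  have h := congrArg (phi X) (aM_closure hF he h1 hX m 1)
  rw [map_sum, map_mul, map_natCast, Nat.cast_one, one_mul, Nat.add_sub_cancel] at h
  rw [← h]
  refine Finset.sum_congr rfl fun b _ => ?_
  rw [map_mul, phi_pd]

/-- the functions `a_n` at the lowest order in the primitive directions -/
theorem aM_order (hF : IsGW X F) (he : Even X.dim) (h1 : IsGenusOneFull F) (hX : 3 ≤ X.dim)
    (v : X.Prim) (w : List X.Prim)
    (h : ∀ w' : List X.Prim, w'.length < (v :: w).length → ∀ n,
      ev0 (dP w' (phi X (aM hF he n))) = 0) (n : ℕ) :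
    ev0 (dP (v :: w) (phi X (aM hF he n))) =
      (n : RR X) * (lam hF h1.toOne (Eu hF h1.toOne)) v ^ (n - 1) *
        ev0 (dP (v :: w) (phi X (aM hF he 1))) :=
  top_key hF h1.toOne
    (fun m v b => phi X ((EM hF he ^ m * QA.bas (consts hF he) (Sum.inr v) : AM hF he) b))
    (fun n => phi X (aM hF he n)) (fun m v b => ev0_pow_mul hF he h1.toOne m v b)
    (aM_pd hF he h1 hX) v w (fun n u hu => h u hu n) n

/-- the constraints on the full small phase space with at most `N0` primitive insertions, from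
the ambient ones and from `a_1` at the origin, the lower orders being known -/
theorem virasoro_small_rel (hF : IsGW X F) (he : Even X.dim) (h1 : IsGenusOneFull F)
    (hX : 3 ≤ X.dim) (hi : index X ≠ 0)
    (h0 : ∀ k d (L : List (Fin (X.dim + 1))), virasoro X F (k + 1) 1 d (L.map (hpow X)) = 0)
    (N0 : ℕ) (h3 : ∀ w : List X.Prim, w ≠ [] → w.length ≤ N0 →
      (∀ w' : List X.Prim, w'.length < w.length → ∀ n,
        ev0 (dP w' (phi X (aM hF he n))) = 0) →
      MvPowerSeries.constantCoeff (dP w (phi X (aM hF he 1))) = 0)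
    (k d : ℕ) (L : List (Ix X)) (hL : (L.countP fun a => a.isRight) ≤ N0) :
    virasoro X F (k + 1) 1 d (L.map fun a => (a, 0)) = 0 := by
  have h1' := h1.toOne
  have main : ∀ (w : List X.Prim), w.length ≤ N0 → ∀ n,
      ev0 (dP w (phi X (aM hF he n))) = 0 :=
    top_rel hF h1' hi N0
      (fun m b => phi X ((EM hF he ^ m : AM hF he) b))
      (fun m v b => phi X ((EM hF he ^ m * QA.bas (consts hF he) (Sum.inr v) : AM hF he) b))
      (fun n => phi X (aM hF he n))
      (fun m i => ev0_pow_inl hF he h1' m i) (fun m b => ev0_pow_inr hF he h1' m b)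
      (fun m v b => ev0_pd_pow hF he h1' m v b) (aM_field hF he h1 hX)
      (fun m v b => ev0_pow_mul hF he h1' m v b) (aM_pd hF he h1 hX)
      (ev0_aM hF he h1 hX h0) h3
  refine list_zero (fun d L => virasoro X F (k + 1) 1 d L) (symF_vir (E0 X) hF he k) N0 ?_ d L hL
  intro w hw
  have h := congrArg ev0 (dP_vir hF he h1 hX k w)
  rw [map_add, map_mul, map_mul, map_natCast, map_natCast, map_zero, main w hw k, mul_zero,
    zero_add] at h
  exact natCast_cancel 2 two_ne_zero _ h

end Vale.Agent.P269.G2.H984
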